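import Crest.Agent.Lib.EF.Defs

/-!
# S0025, task D2: the moment bound for the number of characters with a large prime sum
-/

namespace Crest.Agent.EF

open Finset

/-- Number of naturals in `Icc 1 Y` in a given residue class. -/
lemma badCount_residue (n Y : ℕ) (a : ZMod n) :
    ((Finset.Icc 1 Y).filter (fun x : ℕ => (x : ZMod n) = a)).card ≤ Y / n + 1 := by
  have : ((Finset.Icc 1 Y).filter (fun x : ℕ => (x : ZMod n) = a)).card
      ≤ (Finset.range (Y / n + 1)).card := by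
    apply Finset.card_le_card_of_injOn (fun x => x / n)
    · intro x hx
      simp only [coe_filter, mem_Icc, Set.mem_ofPred_eq] at hx
      simp only [coe_range, Set.mem_Iio]
      have := Nat.div_le_div_right (c := n) hx.1.2
      omega
    · intro x hx x' hx' hxx
      simp only [coe_filter, mem_Icc, Set.mem_ofPred_eq] at hx hx'
      have h1 : (x : ZMod n) = (x' : ZMod n) := by rw [hx.2, hx'.2]
      have h2 : x % n = x' % n := (ZMod.natCast_eq_natCast_iff' x x' n).mp h1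
      have h3 : x / n = x' / n := hxx
      calc x = n * (x / n) + x % n := (Nat.div_add_mod x n).symm
        _ = n * (x' / n) + x' % n := by rw [h3, h2]
        _ = x' := Nat.div_add_mod x' n
  simpa using this

/-- The tuples of primes with a given product. -/
lemma badCount_fiber {m : ℕ} (Q : Finset ℕ) (hQ : ∀ p ∈ Q, p.Prime) (x : ℕ) :
    ((Fintype.piFinset (fun _ : Fin m => Q)).filter (fun p => ∏ i, p i = x)).card ≤ m ^ m := by
  classical
  by_cases hne : ((Fintype.piFinset (fun _ : Fin m => Q)).filter (fun p => ∏ i, p i = x)).Nonempty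
  · obtain ⟨p₀, hp₀⟩ := hne
    simp only [mem_filter, Fintype.mem_piFinset] at hp₀
    have hx0 : x ≠ 0 := by
      rw [← hp₀.2]
      exact Finset.prod_ne_zero_iff.mpr (fun i _ => (hQ _ (hp₀.1 i)).ne_zero)
    have hcard : x.primeFactors.card ≤ m := by
      have hsub : x.primeFactors ⊆ Finset.univ.image p₀ := by
        intro q hq
        have hqp := Nat.prime_of_mem_primeFactors hq
        have hqd := Nat.dvd_of_mem_primeFactors hq
        rw [← hp₀.2] at hqd
        obtain ⟨i, -, hi⟩ := (Prime.dvd_finsetProd_iff hqp.prime _).mp hqd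
        have : q = p₀ i := (Nat.prime_dvd_prime_iff_eq hqp (hQ _ (hp₀.1 i))).mp hi
        rw [this]
        exact Finset.mem_image_of_mem _ (Finset.mem_univ i)
      calc x.primeFactors.card ≤ (Finset.univ.image p₀).card := Finset.card_le_card hsub
        _ ≤ (Finset.univ : Finset (Fin m)).card := Finset.card_image_le
        _ = m := by simp
    have hsub : ((Fintype.piFinset (fun _ : Fin m => Q)).filter (fun p => ∏ i, p i = x))
        ⊆ Fintype.piFinset (fun _ : Fin m => x.primeFactors) := by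
      intro p hp
      simp only [mem_filter, Fintype.mem_piFinset] at hp
      rw [Fintype.mem_piFinset]
      intro i
      rw [Nat.mem_primeFactors]
      refine ⟨hQ _ (hp.1 i), ?_, hx0⟩
      rw [← hp.2]
      exact Finset.dvd_prod_of_mem _ (Finset.mem_univ i)
    calc _ ≤ (Fintype.piFinset (fun _ : Fin m => x.primeFactors)).card := Finset.card_le_card hsub
      _ = x.primeFactors.card ^ m := by simp
      _ ≤ m ^ m := Nat.pow_le_pow_left hcard m
  · rw [Finset.not_nonempty_iff_eq_empty] at hne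
    rw [hne]
    simp

/-- The number of tuples of primes from `Q` whose product is in a given residue class. -/
lemma badCount_tuples {n : ℕ} (hn : 0 < n) (Q : Finset ℕ) (y m : ℕ)
    (hQ : ∀ p ∈ Q, p.Prime ∧ p ≤ y) (a : ZMod n) :
    ((Fintype.piFinset (fun _ : Fin m => Q)).filter
        (fun p => ((∏ i, p i : ℕ) : ZMod n) = a)).card ≤ m ^ m * (y ^ m / n + 1) := by
  classical
  have hmaps : ∀ p ∈ (Fintype.piFinset (fun _ : Fin m => Q)).filter
        (fun p => ((∏ i, p i : ℕ) : ZMod n) = a),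
      (∏ i, p i) ∈ (Finset.Icc 1 (y ^ m)).filter (fun x : ℕ => (x : ZMod n) = a) := by
    intro p hp
    simp only [mem_filter, Fintype.mem_piFinset] at hp
    simp only [mem_filter, mem_Icc]
    refine ⟨⟨?_, ?_⟩, hp.2⟩
    · exact Nat.one_le_iff_ne_zero.mpr
        (Finset.prod_ne_zero_iff.mpr (fun i _ => (hQ _ (hp.1 i)).1.ne_zero))
    · calc ∏ i, p i ≤ ∏ _i : Fin m, y :=
            Finset.prod_le_prod' (fun i _ => (hQ _ (hp.1 i)).2)
        _ = y ^ m := by simp
  have hfib : ∀ x ∈ (Finset.Icc 1 (y ^ m)).filter (fun x : ℕ => (x : ZMod n) = a),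
      (((Fintype.piFinset (fun _ : Fin m => Q)).filter
        (fun p => ((∏ i, p i : ℕ) : ZMod n) = a)).filter (fun p => ∏ i, p i = x)).card ≤ m ^ m := by
    intro x _
    refine le_trans (Finset.card_le_card ?_) (badCount_fiber Q (fun p hp => (hQ p hp).1) x)
    intro p hp
    simp only [mem_filter] at hp ⊢
    exact ⟨hp.1.1, hp.2⟩
  calc _ ≤ m ^ m * ((Finset.Icc 1 (y ^ m)).filter (fun x : ℕ => (x : ZMod n) = a)).card :=
        Finset.card_le_mul_card_image_of_maps_to hmaps _ hfib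
    _ ≤ m ^ m * (y ^ m / n + 1) :=
        Nat.mul_le_mul_left _ (badCount_residue n _ a)

/-- Conjugate of a Dirichlet character at a unit. -/
lemma badCount_conj {n : ℕ} [NeZero n] (χ : DirichletCharacter ℂ n) {a : ZMod n} (ha : IsUnit a) :
    (starRingEnd ℂ) (χ a) = χ a⁻¹ := by
  obtain ⟨u, rfl⟩ := ha
  have h1 : star (χ (u : ZMod n)) = χ⁻¹ (u : ZMod n) := MulChar.star_apply' χ _
  have h2 : χ⁻¹ (u : ZMod n) = χ (Ring.inverse (u : ZMod n)) := MulChar.inv_apply χ _
  rw [Ring.inverse_unit] at h2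
  rw [ZMod.inv_coe_unit]
  rw [← h2, ← h1]
  rfl

/-- Expansion of the `2m`-th moment of a character sum over primes. -/
lemma badCount_moment {n : ℕ} [NeZero n] (Q : Finset ℕ) (m : ℕ)
    (hQc : ∀ p ∈ Q, Nat.Coprime p n) :
    (∑ χ : DirichletCharacter ℂ n, ‖∑ p ∈ Q, χ (p : ZMod n)‖ ^ (2 * m) : ℝ)
      = (n.totient : ℝ) * (∑ q ∈ Fintype.piFinset (fun _ : Fin m => Q),
          (((Fintype.piFinset (fun _ : Fin m => Q)).filter
            (fun p => ((∏ i, p i : ℕ) : ZMod n) = ((∏ i, q i : ℕ) : ZMod n))).card : ℝ)) := by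
  classical
  set T := Fintype.piFinset (fun _ : Fin m => Q) with hT
  have hunit : ∀ q ∈ T, IsUnit (((∏ i, q i : ℕ)) : ZMod n) := by
    intro q hq
    rw [hT, Fintype.mem_piFinset] at hq
    exact (ZMod.isUnit_iff_coprime _ n).mpr (Nat.Coprime.prod_left (fun i _ => hQc _ (hq i)))
  have hpow : ∀ χ : DirichletCharacter ℂ n,
      (∑ p ∈ Q, χ (p : ZMod n)) ^ m = ∑ p ∈ T, χ (((∏ i, p i : ℕ)) : ZMod n) := by
    intro χ
    have : (∑ p ∈ Q, χ (p : ZMod n)) ^ m
        = ∏ _i : Fin m, ∑ p ∈ Q, χ (p : ZMod n) := by simp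
    rw [this, Finset.prod_univ_sum]
    refine Finset.sum_congr rfl (fun p _ => ?_)
    rw [Nat.cast_prod, map_prod]
  have hnorm : ∀ χ : DirichletCharacter ℂ n,
      ((‖∑ p ∈ Q, χ (p : ZMod n)‖ ^ (2 * m) : ℝ) : ℂ)
        = ∑ p ∈ T, ∑ q ∈ T, (χ (((∏ i, q i : ℕ)) : ZMod n))⁻¹ * 0 +
          (∑ q ∈ T, ∑ p ∈ T, χ (((∏ i, q i : ℕ)) : ZMod n)⁻¹ *
            χ (((∏ i, p i : ℕ)) : ZMod n)) := by
    intro χ
    set V := ∑ p ∈ Q, χ (p : ZMod n) with hV
    have h1 : ((‖V‖ ^ (2 * m) : ℝ) : ℂ) = V ^ m * (starRingEnd ℂ) (V ^ m) := by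
      rw [Complex.mul_conj, Complex.normSq_eq_norm_sq, norm_pow]
      push_cast
      ring
    rw [h1, hpow χ, map_sum, Finset.sum_mul_sum]
    simp only [mul_zero, Finset.sum_const_zero, zero_add]
    rw [Finset.sum_comm]
    refine Finset.sum_congr rfl (fun q hq => Finset.sum_congr rfl (fun p _ => ?_))
    rw [badCount_conj χ (hunit q hq), mul_comm]
  apply Complex.ofReal_injective
  simp only [Complex.ofReal_sum, Complex.ofReal_mul, Complex.ofReal_natCast]
  calc (∑ χ : DirichletCharacter ℂ n, ((‖∑ p ∈ Q, χ (p : ZMod n)‖ ^ (2 * m) : ℝ) : ℂ))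
      = ∑ χ : DirichletCharacter ℂ n,
          ∑ q ∈ T, ∑ p ∈ T, χ (((∏ i, q i : ℕ)) : ZMod n)⁻¹ *
            χ (((∏ i, p i : ℕ)) : ZMod n) := by
        refine Finset.sum_congr rfl (fun χ _ => ?_)
        have := hnorm χ
        simp only [mul_zero, Finset.sum_const_zero, zero_add] at this
        exact this
    _ = ∑ q ∈ T, ∑ p ∈ T, ∑ χ : DirichletCharacter ℂ n,
          χ (((∏ i, q i : ℕ)) : ZMod n)⁻¹ * χ (((∏ i, p i : ℕ)) : ZMod n) := by
        rw [Finset.sum_comm]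
        refine Finset.sum_congr rfl (fun q _ => ?_)
        rw [Finset.sum_comm]
    _ = ∑ q ∈ T, ∑ p ∈ T, (if ((∏ i, q i : ℕ) : ZMod n) = ((∏ i, p i : ℕ) : ZMod n)
          then (n.totient : ℂ) else 0) := by
        refine Finset.sum_congr rfl (fun q hq => Finset.sum_congr rfl (fun p _ => ?_))
        exact DirichletCharacter.sum_char_inv_mul_char_eq ℂ (hunit q hq) _
    _ = (n.totient : ℂ) * ∑ q ∈ T, ((T.filter
          (fun p => ((∏ i, p i : ℕ) : ZMod n) = ((∏ i, q i : ℕ) : ZMod n))).card : ℂ) := by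
        rw [Finset.mul_sum]
        refine Finset.sum_congr rfl (fun q _ => ?_)
        rw [← Finset.sum_boole, Finset.mul_sum]
        refine Finset.sum_congr rfl (fun p _ => ?_)
        by_cases h : ((∏ i, q i : ℕ) : ZMod n) = ((∏ i, p i : ℕ) : ZMod n)
        · rw [if_pos h, if_pos h.symm, mul_one]
        · rw [if_neg h, if_neg (fun e => h e.symm), mul_zero]

/-- TASK D2. The moment bound for the number of characters with a large prime sum. -/
theorem bad_count {n : ℕ} [NeZero n] (Q : Finset ℕ) (y m L : ℕ) (hm : 1 ≤ m) (hn : n ≤ y ^ m)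
    (hQp : ∀ p ∈ Q, p.Prime ∧ p ≤ y ∧ Nat.Coprime p n) (hQL : Q.card ≤ L) (hL : 0 < L) :
    (((Finset.univ : Finset (DirichletCharacter ℂ n)).filter fun χ =>
        (L : ℝ) / 2 < ‖∑ p ∈ Q, χ (p : ZMod n)‖).card : ℝ) * ((L : ℝ) / 2) ^ (2 * m)
      ≤ 2 * (m : ℝ) ^ m * (L : ℝ) ^ m * (y : ℝ) ^ m := by
  classical
  have hn0 : 0 < n := Nat.pos_of_ne_zero (NeZero.ne n)
  have hLpos : (0 : ℝ) ≤ (L : ℝ) / 2 := by positivity
  -- Markov
  have hMarkov : (((Finset.univ : Finset (DirichletCharacter ℂ n)).filter fun χ =>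
        (L : ℝ) / 2 < ‖∑ p ∈ Q, χ (p : ZMod n)‖).card : ℝ) * ((L : ℝ) / 2) ^ (2 * m)
      ≤ ∑ χ : DirichletCharacter ℂ n, ‖∑ p ∈ Q, χ (p : ZMod n)‖ ^ (2 * m) := by
    rw [← nsmul_eq_mul]
    calc _ ≤ ∑ χ ∈ (Finset.univ : Finset (DirichletCharacter ℂ n)).filter (fun χ =>
            (L : ℝ) / 2 < ‖∑ p ∈ Q, χ (p : ZMod n)‖),
              ‖∑ p ∈ Q, χ (p : ZMod n)‖ ^ (2 * m) := by
          apply Finset.card_nsmul_le_sum
          intro χ hχ
          simp only [mem_filter, mem_univ, true_and] at hχ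
          exact pow_le_pow_left₀ hLpos hχ.le _
      _ ≤ _ := Finset.sum_le_sum_of_subset_of_nonneg (Finset.filter_subset _ _)
          (fun _ _ _ => by positivity)
  refine le_trans hMarkov ?_
  rw [badCount_moment Q m (fun p hp => (hQp p hp).2.2)]
  set T := Fintype.piFinset (fun _ : Fin m => Q) with hT
  have hcount : ∀ q ∈ T, ((T.filter (fun p => ((∏ i, p i : ℕ) : ZMod n) =
      ((∏ i, q i : ℕ) : ZMod n))).card : ℝ) ≤ (m : ℝ) ^ m * ((y ^ m / n : ℕ) + 1) := by
    intro q _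
    have := badCount_tuples (m := m) hn0 Q y (fun p hp => ⟨(hQp p hp).1, (hQp p hp).2.1⟩)
      ((∏ i, q i : ℕ) : ZMod n)
    exact_mod_cast this
  have hTcard : (T.card : ℝ) ≤ (L : ℝ) ^ m := by
    have : T.card = Q.card ^ m := by simp [hT]
    rw [this]
    push_cast
    exact pow_le_pow_left₀ (by positivity) (by exact_mod_cast hQL) _
  have hsum : (∑ q ∈ T, ((T.filter (fun p => ((∏ i, p i : ℕ) : ZMod n) =
      ((∏ i, q i : ℕ) : ZMod n))).card : ℝ)) ≤
        (L : ℝ) ^ m * ((m : ℝ) ^ m * ((y ^ m / n : ℕ) + 1)) := by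
    calc _ ≤ ∑ _q ∈ T, ((m : ℝ) ^ m * ((y ^ m / n : ℕ) + 1)) := Finset.sum_le_sum hcount
      _ = (T.card : ℝ) * ((m : ℝ) ^ m * ((y ^ m / n : ℕ) + 1)) := by simp
      _ ≤ _ := mul_le_mul_of_nonneg_right hTcard (by positivity)
  have htot : (n.totient : ℝ) ≤ n := by exact_mod_cast Nat.totient_le n
  have hdiv : (n : ℝ) * (((y ^ m / n : ℕ) : ℝ) + 1) ≤ 2 * (y : ℝ) ^ m := by
    have h1 : n * (y ^ m / n) ≤ y ^ m := Nat.mul_div_le _ _
    have h1' : (n : ℝ) * ((y ^ m / n : ℕ) : ℝ) ≤ (y : ℝ) ^ m := by exact_mod_cast h1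
    have h2 : (n : ℝ) ≤ (y : ℝ) ^ m := by exact_mod_cast hn
    nlinarith
  have hA : 0 ≤ (L : ℝ) ^ m * (m : ℝ) ^ m := by positivity
  calc (n.totient : ℝ) * (∑ q ∈ T, ((T.filter (fun p => ((∏ i, p i : ℕ) : ZMod n) =
        ((∏ i, q i : ℕ) : ZMod n))).card : ℝ))
      ≤ (n : ℝ) * ((L : ℝ) ^ m * ((m : ℝ) ^ m * ((y ^ m / n : ℕ) + 1))) :=
        mul_le_mul htot hsum (Finset.sum_nonneg (fun _ _ => by positivity)) (by positivity)
    _ = ((L : ℝ) ^ m * (m : ℝ) ^ m) * ((n : ℝ) * (((y ^ m / n : ℕ) : ℝ) + 1)) := by ring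
    _ ≤ ((L : ℝ) ^ m * (m : ℝ) ^ m) * (2 * (y : ℝ) ^ m) :=
        mul_le_mul_of_nonneg_left hdiv hA
    _ = _ := by ring

end Crest.Agent.EF
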