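import Crest.Agent.Lib.EF.Defs

/-!
# S0025, tasks D4, D5: the number of primes in `(N₀, y]`; totient of a rough number
-/

namespace Crest.Agent.EF

open Finset Real

/-- `π(y)` is at most the number of primes in `(N₀,y]` plus `N₀`. -/
lemma primeCount_pi_le (N y : ℕ) :
    Nat.primeCounting y ≤ ((Finset.Ioc N y).filter Nat.Prime).card + N := by
  classical
  have h1 : Nat.primeCounting y = ((Finset.range (y + 1)).filter Nat.Prime).card := by
    rw [Nat.primeCounting, Nat.primeCounting', Nat.count_eq_card_filter_range]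
  rw [h1]
  have hsub : (Finset.range (y + 1)).filter Nat.Prime ⊆
      ((Finset.Ioc N y).filter Nat.Prime) ∪ Finset.Icc 1 N := by
    intro p hp
    simp only [mem_filter, mem_range] at hp
    simp only [mem_union, mem_filter, mem_Ioc, mem_Icc]
    by_cases h : N < p
    · exact Or.inl ⟨⟨h, by omega⟩, hp.2⟩
    · exact Or.inr ⟨hp.2.one_lt.le, by omega⟩
  calc _ ≤ (((Finset.Ioc N y).filter Nat.Prime) ∪ Finset.Icc 1 N).card := Finset.card_le_card hsub
    _ ≤ _ := Finset.card_union_le _ _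
    _ = _ := by simp

/-- TASK D4. Number of primes in `(N₀, y]`. -/
theorem card_PP (ℓ : ℕ) (hℓ : 100 ≤ ℓ) : (yy ℓ : ℝ) ≤ 32 * ℓ * (PP ℓ).card := by
  have hℓ0 : (0 : ℝ) < ℓ := by
    have : (100 : ℝ) ≤ ℓ := by exact_mod_cast hℓ
    linarith
  set y : ℕ := yy ℓ with hy
  have hlog2 : 0 < Real.log 2 := Real.log_pos (by norm_num)
  have hyR : (y : ℝ) = 2 ^ (16 * ℓ) := by simp [hy, yy]
  have hlogy : Real.log y = 16 * ℓ * Real.log 2 := by
    rw [hyR, Real.log_pow]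
    push_cast
    ring
  have hlogy0 : 0 < Real.log y := by rw [hlogy]; positivity
  have hy1 : (1 : ℝ) ≤ y := by
    rw [hyR]; exact one_le_pow₀ (by norm_num)
  have hlogy1 : Real.log ((y : ℝ) + 1) ≤ Real.log y + Real.log 2 := by
    rw [← Real.log_mul (by linarith) (by norm_num)]
    exact Real.log_le_log (by linarith) (by linarith)
  have hpi := Chebyshev.pi_ge y
  rw [div_le_iff₀ hlogy0] at hpi
  have hpi2 : (y : ℝ) ≤ 16 * ℓ * ((Nat.primeCounting y : ℝ) + 2) := by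
    have h2 : (y : ℝ) * Real.log 2 ≤ (Nat.primeCounting y : ℝ) * (16 * ℓ * Real.log 2)
        + (16 * ℓ * Real.log 2 + Real.log 2) := by
      rw [hlogy] at hpi hlogy1
      linarith
    have h3 : (1 : ℝ) ≤ 16 * ℓ := by
      have : (100 : ℝ) ≤ ℓ := by exact_mod_cast hℓ
      linarith
    have h4 : (y : ℝ) * Real.log 2 ≤ (16 * ℓ * ((Nat.primeCounting y : ℝ) + 2)) * Real.log 2 := by
      nlinarith [mul_pos hlog2 hℓ0]
    exact le_of_mul_le_mul_right h4 hlog2
  have hcount : (Nat.primeCounting y : ℝ) ≤ (PP ℓ).card + (N0 ℓ : ℝ) := by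
    have := primeCount_pi_le (N0 ℓ) y
    exact_mod_cast this
  have hN0 : 32 * (ℓ : ℝ) * ((N0 ℓ : ℝ) + 2) ≤ y := by
    have hnat : 32 * ℓ * (N0 ℓ + 2) ≤ yy ℓ := by
      have h1 : ℓ ≤ 2 ^ ℓ := Nat.lt_two_pow_self.le
      have h2 : N0 ℓ ≤ 2 ^ ℓ := by
        simp only [N0]
        exact Nat.pow_le_pow_right (by norm_num) (by omega)
      have h3 : (2 : ℕ) ≤ 2 ^ ℓ := by
        calc 2 = 2 ^ 1 := by norm_num
          _ ≤ 2 ^ ℓ := Nat.pow_le_pow_right (by norm_num) (by omega)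
      calc 32 * ℓ * (N0 ℓ + 2) ≤ 32 * 2 ^ ℓ * (2 ^ ℓ + 2 ^ ℓ) := by gcongr
        _ = 2 ^ (6 + 2 * ℓ) := by ring
        _ ≤ 2 ^ (16 * ℓ) := Nat.pow_le_pow_right (by norm_num) (by omega)
    exact_mod_cast hnat
  nlinarith

/-- The elementary inequality `1 - ∑ x ≤ ∏ (1 - x)` for `x ∈ [0,1]`. -/
lemma primeCount_prod_ge {ι : Type*} (s : Finset ι) (x : ι → ℚ)
    (h0 : ∀ i ∈ s, 0 ≤ x i) (h1 : ∀ i ∈ s, x i ≤ 1) :
    1 - ∑ i ∈ s, x i ≤ ∏ i ∈ s, (1 - x i) := by
  classical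
  induction s using Finset.induction_on with
  | empty => simp
  | insert a s ha ih =>
    rw [Finset.sum_insert ha, Finset.prod_insert ha]
    have ih' := ih (fun i hi => h0 i (Finset.mem_insert_of_mem hi))
      (fun i hi => h1 i (Finset.mem_insert_of_mem hi))
    have ha0 := h0 a (Finset.mem_insert_self a s)
    have ha1 := h1 a (Finset.mem_insert_self a s)
    have hsum : 0 ≤ ∑ i ∈ s, x i :=
      Finset.sum_nonneg (fun i hi => h0 i (Finset.mem_insert_of_mem hi))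
    have hP : 0 ≤ ∏ i ∈ s, (1 - x i) :=
      Finset.prod_nonneg (fun i hi => by
        have := h1 i (Finset.mem_insert_of_mem hi); linarith)
    nlinarith

/-- TASK D5. A rough number has large totient. -/
theorem totient_rough (ℓ : ℕ) (hℓ : 100 ≤ ℓ) {n : ℕ} (hn : 1 ≤ n) (hn2 : n ≤ 2 ^ KK ℓ)
    (hr : Rough (N0 ℓ) n) : n ≤ 2 * n.totient := by
  classical
  set ω := n.primeFactors.card with hω
  have hN0pos : 0 < N0 ℓ := by simp [N0]
  -- (2^(ℓ-3))^ω ≤ n
  have h1 : (N0 ℓ) ^ ω ≤ n := by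
    calc (N0 ℓ) ^ ω = ∏ _p ∈ n.primeFactors, N0 ℓ := by simp [hω]
      _ ≤ ∏ p ∈ n.primeFactors, p := by
          apply Finset.prod_le_prod' 
          intro p hp
          exact (hr p (Nat.prime_of_mem_primeFactors hp) (Nat.dvd_of_mem_primeFactors hp)).le
      _ ≤ n := Nat.le_of_dvd hn (Nat.prod_primeFactors_dvd n)
  have h2 : ω * (ℓ - 3) ≤ KK ℓ := by
    have : 2 ^ ((ℓ - 3) * ω) ≤ 2 ^ KK ℓ := by
      calc 2 ^ ((ℓ - 3) * ω) = (N0 ℓ) ^ ω := by simp [N0, pow_mul]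
        _ ≤ n := h1
        _ ≤ _ := hn2
    have := (Nat.pow_le_pow_iff_right (a := 2) (by norm_num)).mp this
    linarith [Nat.mul_comm ω (ℓ - 3)]
  -- `∑ 1/p ≤ 1/2`
  have h3 : (∑ p ∈ n.primeFactors, (p : ℚ)⁻¹) ≤ 1 / 2 := by
    have hb : ∀ p ∈ n.primeFactors, (p : ℚ)⁻¹ ≤ ((N0 ℓ : ℕ) : ℚ)⁻¹ := by
      intro p hp
      have hlt := hr p (Nat.prime_of_mem_primeFactors hp) (Nat.dvd_of_mem_primeFactors hp)
      apply inv_anti₀ (by exact_mod_cast hN0pos)
      exact_mod_cast hlt.le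
    calc _ ≤ ∑ _p ∈ n.primeFactors, ((N0 ℓ : ℕ) : ℚ)⁻¹ := Finset.sum_le_sum hb
      _ = (ω : ℚ) * ((N0 ℓ : ℕ) : ℚ)⁻¹ := by simp [hω]
      _ ≤ 1 / 2 := by
          have hN : (0 : ℚ) < (N0 ℓ : ℕ) := by exact_mod_cast hN0pos
          rw [← div_eq_mul_inv, div_le_iff₀ hN]
          -- `ω ≤ N₀ / 2`
          have hK : KK ℓ = 8 * N0 ℓ := by
            simp only [KK, N0]
            have : ℓ = (ℓ - 3) + 3 := by omega
            conv_lhs => rw [this, pow_add]
            ring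
          have h97 : 97 ≤ ℓ - 3 := by omega
          have hnat : 2 * ω ≤ N0 ℓ := by
            have : ω * 97 ≤ 8 * N0 ℓ := by
              calc ω * 97 ≤ ω * (ℓ - 3) := Nat.mul_le_mul_left _ h97
                _ ≤ KK ℓ := h2
                _ = _ := hK
            omega
          have : (2 * ω : ℚ) ≤ (N0 ℓ : ℕ) := by exact_mod_cast hnat
          linarith
  have h4 : (1 : ℚ) / 2 ≤ ∏ p ∈ n.primeFactors, (1 - (p : ℚ)⁻¹) := by
    have := primeCount_prod_ge n.primeFactors (fun p => (p : ℚ)⁻¹)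
      (fun p _ => by positivity)
      (fun p hp => by
        have hp1 : (1 : ℚ) ≤ p := by
          exact_mod_cast (Nat.prime_of_mem_primeFactors hp).one_lt.le
        exact inv_le_one_of_one_le₀ hp1)
    linarith
  have h5 := Nat.totient_eq_mul_prod_factors n
  have h6 : (n : ℚ) ≤ 2 * (n.totient : ℚ) := by
    rw [h5]
    have hn0 : (0 : ℚ) ≤ n := by positivity
    nlinarith
  exact_mod_cast h6

end Crest.Agent.EF
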