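import Crest.Agent.Lib.EF.BadCount
import Crest.Agent.Lib.EF.PrimeCount

/-!
# Task D6: few bad characters.
-/

namespace Crest.Agent.EF

open Finset

/-- Numerics: `(1024 ℓ) ^ 4 ≤ 2 ^ (ℓ - 3)` for `ℓ ≥ 100`. -/
lemma badSmall_num (ℓ : ℕ) (hℓ : 100 ≤ ℓ) : (1024 * ℓ) ^ 4 ≤ 2 ^ (ℓ - 3) := by
  induction ℓ, hℓ using Nat.le_induction with
  | base => norm_num
  | succ k hk ih =>
    have h1 : k + 1 - 3 = (k - 3) + 1 := by omega
    rw [h1, pow_succ]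
    have h2 : (1024 * (k + 1)) ^ 4 ≤ (1024 * k) ^ 4 * 2 := by
      have : (k + 1) ^ 4 ≤ k ^ 4 * 2 := by
        have hk' : 100 ≤ k := hk
        nlinarith [pow_le_pow_left₀ (Nat.zero_le _) hk' 3, Nat.zero_le k, pow_succ k 3,
          pow_succ k 2, pow_succ k 1, sq_nonneg k, mul_le_mul hk' hk' (Nat.zero_le _) (Nat.zero_le _)]
      calc (1024 * (k + 1)) ^ 4 = 1024 ^ 4 * (k + 1) ^ 4 := by ring
        _ ≤ 1024 ^ 4 * (k ^ 4 * 2) := Nat.mul_le_mul_left _ this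
        _ = (1024 * k) ^ 4 * 2 := by ring
    exact h2.trans (Nat.mul_le_mul_right _ ih)

/-- The bound for the number of bad characters coming from the moment estimate. -/
lemma badSmall_X (ℓ : ℕ) (hℓ : 100 ≤ ℓ) (s n m : ℕ) [NeZero n] (hs : 1 ≤ s) (hns : n ∣ s)
    (hm : 1 ≤ m) (hnm : n ≤ (yy ℓ) ^ m) :
    ((Finset.univ : Finset (DirichletCharacter ℂ n)).filter fun χ => ¬ Good ℓ s χ).card
      ≤ 2 * (128 * m * ℓ) ^ m := by
  set L := (PP ℓ).card with hLdef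
  have hy : (yy ℓ : ℝ) ≤ 32 * ℓ * L := card_PP ℓ hℓ
  have hypos : (0 : ℝ) < yy ℓ := by
    have : 0 < yy ℓ := by unfold yy; positivity
    exact_mod_cast this
  have hℓ0 : (0 : ℝ) < ℓ := by
    have : 0 < ℓ := by omega
    exact_mod_cast this
  have hLpos : 0 < L := by
    by_contra h
    have hL0 : L = 0 := by omega
    rw [hL0] at hy
    simp only [Nat.cast_zero, mul_zero] at hy
    linarith
  have hLR : (0 : ℝ) < L := by exact_mod_cast hLpos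
  set Q := (PP ℓ).filter (fun p => ¬ p ∣ s) with hQdef
  have hQp : ∀ p ∈ Q, p.Prime ∧ p ≤ yy ℓ ∧ Nat.Coprime p n := by
    intro p hp
    rw [hQdef, Finset.mem_filter] at hp
    obtain ⟨hp1, hp2⟩ := hp
    rw [PP, Finset.mem_filter, Finset.mem_Ioc] at hp1
    refine ⟨hp1.2, hp1.1.2, ?_⟩
    rw [Nat.Prime.coprime_iff_not_dvd hp1.2]
    exact fun h => hp2 (h.trans hns)
  have hQL : Q.card ≤ L := Finset.card_filter_le _ _
  have key := bad_count Q (yy ℓ) m L hm hnm hQp hQL hLpos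
  have hfilter : ((Finset.univ : Finset (DirichletCharacter ℂ n)).filter fun χ => ¬ Good ℓ s χ) =
      (Finset.univ : Finset (DirichletCharacter ℂ n)).filter fun χ =>
        (L : ℝ) / 2 < ‖∑ p ∈ Q, χ (p : ZMod n)‖ := by
    ext χ
    simp only [Finset.mem_filter, Finset.mem_univ, true_and, Good, VV, not_le, hLdef, hQdef]
  rw [hfilter]
  set X := ((Finset.univ : Finset (DirichletCharacter ℂ n)).filter fun χ =>
        (L : ℝ) / 2 < ‖∑ p ∈ Q, χ (p : ZMod n)‖).card with hX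
  have hA : (0 : ℝ) < (L : ℝ) ^ 2 / 4 := by positivity
  have h1 : ((L : ℝ) / 2) ^ (2 * m) = ((L : ℝ) ^ 2 / 4) ^ m := by
    rw [pow_mul]; congr 1; ring
  have h2 : 2 * (m : ℝ) ^ m * (L : ℝ) ^ m * (yy ℓ : ℝ) ^ m ≤
      2 * (128 * m * ℓ : ℝ) ^ m * ((L : ℝ) ^ 2 / 4) ^ m := by
    have h3 : (yy ℓ : ℝ) ^ m ≤ (32 * ℓ * L : ℝ) ^ m :=
      pow_le_pow_left₀ hypos.le hy m
    calc 2 * (m : ℝ) ^ m * (L : ℝ) ^ m * (yy ℓ : ℝ) ^ m
        ≤ 2 * (m : ℝ) ^ m * (L : ℝ) ^ m * (32 * ℓ * L : ℝ) ^ m := by gcongr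
      _ = 2 * ((m : ℝ) * L * (32 * ℓ * L)) ^ m := by rw [mul_pow, mul_pow]; ring
      _ = 2 * ((128 * m * ℓ : ℝ) * ((L : ℝ) ^ 2 / 4)) ^ m := by congr 2; ring
      _ = 2 * (128 * m * ℓ : ℝ) ^ m * ((L : ℝ) ^ 2 / 4) ^ m := by rw [mul_pow]; ring
  rw [h1] at key
  have h4 : (X : ℝ) ≤ 2 * (128 * m * ℓ : ℝ) ^ m :=
    le_of_mul_le_mul_right (key.trans h2) (pow_pos hA m)
  exact_mod_cast h4

/-- TASK D6. Few bad characters (numerics + D2 + D4). -/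
theorem bad_small (ℓ : ℕ) (hℓ : 100 ≤ ℓ) (s n : ℕ) [NeZero n] (hs : 1 ≤ s) (hns : n ∣ s)
    (hn1 : 1 < n) (hn : n ≤ 2 ^ KK ℓ) (hr : Rough (N0 ℓ) n) :
    (((Finset.univ : Finset (DirichletCharacter ℂ n)).filter fun χ =>
        ¬ Good ℓ s χ).card * 4 : ℝ) ^ 4 ≤ n := by
  have hy1 : 1 < yy ℓ := by
    unfold yy
    exact Nat.one_lt_two_pow (by omega)
  set m := Nat.clog (yy ℓ) n with hmdef
  have hm : 1 ≤ m := Nat.clog_pos hy1 hn1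
  have hnm : n ≤ (yy ℓ) ^ m := Nat.le_pow_clog hy1 n
  have hnm' : (yy ℓ) ^ (m - 1) < n := Nat.pow_pred_clog_lt_self hy1 hn1
  have hX := badSmall_X ℓ hℓ s n m hs hns hm hnm
  set X := ((Finset.univ : Finset (DirichletCharacter ℂ n)).filter fun χ => ¬ Good ℓ s χ).card
    with hXdef
  suffices h : (X * 4) ^ 4 ≤ n by exact_mod_cast h
  obtain hm1 | hm2 : m = 1 ∨ 2 ≤ m := by omega
  · -- `m = 1`
    rw [hm1] at hX
    have hX' : X * 4 ≤ 1024 * ℓ := by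
      simp only [pow_one] at hX
      nlinarith
    have h1 : (X * 4) ^ 4 ≤ (1024 * ℓ) ^ 4 := Nat.pow_le_pow_left hX' 4
    have h2 := badSmall_num ℓ hℓ
    obtain ⟨q, hq, hqn⟩ := Nat.exists_prime_and_dvd (n := n) (by omega)
    have h3 : N0 ℓ < q := hr q hq hqn
    have h4 : q ≤ n := Nat.le_of_dvd (by omega) hqn
    have h5 : N0 ℓ = 2 ^ (ℓ - 3) := rfl
    omega
  · -- `m ≥ 2`
    have h1 : (yy ℓ) ^ (m - 1) = 2 ^ (16 * ℓ * (m - 1)) := by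
      unfold yy
      rw [← pow_mul]
    have h2 : 2 ^ (16 * ℓ * (m - 1)) < 2 ^ (2 ^ ℓ) := by
      calc 2 ^ (16 * ℓ * (m - 1)) = (yy ℓ) ^ (m - 1) := h1.symm
        _ < n := hnm'
        _ ≤ 2 ^ KK ℓ := hn
    have h3 : 16 * ℓ * (m - 1) < 2 ^ ℓ := (Nat.pow_lt_pow_iff_right (by norm_num)).1 h2
    obtain ⟨k, hk⟩ : ∃ k, m = k + 2 := ⟨m - 2, by omega⟩
    have hk1 : m - 1 = k + 1 := by omega
    rw [hk1] at h3
    have h4 : 128 * m * ℓ ≤ 2 ^ (ℓ + 4) := by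
      rw [hk, pow_add]
      have : 128 * (k + 2) * ℓ ≤ 16 * (16 * ℓ * (k + 1)) := by nlinarith
      have h5 : 16 * (16 * ℓ * (k + 1)) ≤ 16 * 2 ^ ℓ := Nat.mul_le_mul_left _ h3.le
      calc 128 * (k + 2) * ℓ ≤ 16 * (16 * ℓ * (k + 1)) := this
        _ ≤ 16 * 2 ^ ℓ := h5
        _ = 2 ^ ℓ * 2 ^ 4 := by norm_num; ring
    have h6 : X * 4 ≤ 2 ^ (3 + (ℓ + 4) * m) := by
      calc X * 4 ≤ 2 * (128 * m * ℓ) ^ m * 4 := Nat.mul_le_mul_right _ hX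
        _ ≤ 2 * (2 ^ (ℓ + 4)) ^ m * 4 := by gcongr
        _ = 2 ^ (3 + (ℓ + 4) * m) := by
            rw [pow_add 2 3 ((ℓ + 4) * m), pow_mul 2 (ℓ + 4) m]; ring
    have h7 : (X * 4) ^ 4 ≤ 2 ^ ((3 + (ℓ + 4) * m) * 4) := by
      rw [pow_mul]
      exact Nat.pow_le_pow_left h6 4
    have h8 : (3 + (ℓ + 4) * m) * 4 ≤ 16 * ℓ * (m - 1) := by
      rw [hk1, hk]
      nlinarith [Nat.mul_le_mul hℓ (Nat.le_refl k)]
    have h9 : 2 ^ ((3 + (ℓ + 4) * m) * 4) ≤ 2 ^ (16 * ℓ * (m - 1)) :=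
      Nat.pow_le_pow_right (by norm_num) h8
    rw [← h1] at h9
    exact (h7.trans h9).trans hnm'.le

end Crest.Agent.EF
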