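import Crest.Agent.Lib.EF.Defs

namespace Crest.Agent.EF

open Finset

/-- TASK C2. The bilinear bound. -/
theorem bilinear_bound {n : ℕ} [NeZero n] {ι : Type*} [Fintype ι] (c : ZMod n) (hc : IsUnit c)
    (w : ι → ZMod n) (M : ℕ)
    (hM : ∀ a : ZMod n, (Finset.univ.filter fun i => w i = a).card ≤ M) :
    ‖∑ i, ∑ k, ZMod.stdAddChar (c * w i * w k)‖ ^ 2 ≤
      (Fintype.card ι : ℝ) ^ 2 * n * (M : ℝ) ^ 2 := by
  classical
  set ψ : AddChar (ZMod n) ℂ := ZMod.stdAddChar with hψ
  let F : ZMod n → ℂ := fun a => ∑ k, ψ (c * a * w k)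
  -- second moment
  have hE : (∑ a : ZMod n, ‖F a‖ ^ 2 : ℝ) =
      ∑ k : ι, ∑ k' : ι, if w k = w k' then (n : ℝ) else 0 := by
    have hC : ((∑ a : ZMod n, ‖F a‖ ^ 2 : ℝ) : ℂ) =
        ∑ k : ι, ∑ k' : ι, if w k = w k' then (n : ℂ) else 0 := by
      push_cast
      have h1 : ∀ a : ZMod n, ((‖F a‖ : ℂ)) ^ 2 =
          ∑ k : ι, ∑ k' : ι, ψ (a * (c * (w k - w k'))) := by
        intro a
        rw [← Complex.mul_conj' (F a)]
        simp only [F]
        rw [map_sum, Finset.sum_mul_sum]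
        refine Finset.sum_congr rfl fun k _ => Finset.sum_congr rfl fun k' _ => ?_
        rw [← AddChar.map_neg_eq_conj, ← AddChar.map_add_eq_mul]
        congr 1
        ring
      simp_rw [h1]
      rw [Finset.sum_comm]
      refine Finset.sum_congr rfl fun k _ => ?_
      rw [Finset.sum_comm]
      refine Finset.sum_congr rfl fun k' _ => ?_
      rw [AddChar.sum_mulShift _ (ZMod.isPrimitive_stdAddChar n)]
      have hiff : c * (w k - w k') = 0 ↔ w k = w k' := by
        constructor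
        · intro h
          have := (hc.mul_right_eq_zero).1 h
          exact sub_eq_zero.1 this
        · intro h
          rw [h]; simp
      by_cases h : w k = w k'
      · rw [if_pos h, if_pos (hiff.2 h)]
        simp [ZMod.card]
      · rw [if_neg h, if_neg (fun h' => h (hiff.1 h'))]
        simp
    apply Complex.ofReal_injective
    rw [hC]
    push_cast
    refine Finset.sum_congr rfl fun k _ => Finset.sum_congr rfl fun k' _ => ?_
    split_ifs <;> simp
  have hE2 : (∑ a : ZMod n, ‖F a‖ ^ 2 : ℝ) ≤ (Fintype.card ι : ℝ) * n * M := by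
    rw [hE]
    calc ∑ k : ι, ∑ k' : ι, (if w k = w k' then (n : ℝ) else 0)
        ≤ ∑ _k : ι, (n : ℝ) * M := by
          refine Finset.sum_le_sum fun k _ => ?_
          have : ∑ k' : ι, (if w k = w k' then (n : ℝ) else 0) =
              (Finset.univ.filter fun k' => w k' = w k).card * (n : ℝ) := by
            rw [Finset.sum_ite, Finset.sum_const_zero, add_zero, Finset.sum_const, nsmul_eq_mul]
            have hfl : (Finset.univ.filter fun k' => w k = w k') =
                (Finset.univ.filter fun k' => w k' = w k) := by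
              ext x
              simp [eq_comm]
            rw [hfl]
          rw [this, mul_comm]
          gcongr
          exact_mod_cast hM (w k)
      _ = (Fintype.card ι : ℝ) * n * M := by
          rw [Finset.sum_const, nsmul_eq_mul, Finset.card_univ]
          ring
  -- fibres
  have hfib : (∑ i : ι, ‖F (w i)‖ ^ 2 : ℝ) ≤ M * ∑ a : ZMod n, ‖F a‖ ^ 2 := by
    rw [← Finset.sum_fiberwise (Finset.univ : Finset ι) w (fun i => ‖F (w i)‖ ^ 2), Finset.mul_sum]
    refine Finset.sum_le_sum fun a _ => ?_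
    have : ∑ i ∈ Finset.univ.filter (fun i => w i = a), ‖F (w i)‖ ^ 2 =
        ((Finset.univ.filter fun i => w i = a).card : ℝ) * ‖F a‖ ^ 2 := by
      rw [← nsmul_eq_mul, ← Finset.sum_const]
      refine Finset.sum_congr rfl fun i hi => ?_
      rw [(Finset.mem_filter.1 hi).2]
    rw [this]
    gcongr
    exact_mod_cast hM a
  have hCS : ‖∑ i, ∑ k, ψ (c * w i * w k)‖ ^ 2 ≤ (Fintype.card ι : ℝ) * ∑ i : ι, ‖F (w i)‖ ^ 2 := by
    have h1 : ‖∑ i, ∑ k, ψ (c * w i * w k)‖ ≤ ∑ i : ι, ‖F (w i)‖ := norm_sum_le _ _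
    calc ‖∑ i, ∑ k, ψ (c * w i * w k)‖ ^ 2 ≤ (∑ i : ι, ‖F (w i)‖) ^ 2 := by gcongr
      _ ≤ ((Finset.univ : Finset ι).card : ℝ) * ∑ i : ι, ‖F (w i)‖ ^ 2 :=
          sq_sum_le_card_mul_sum_sq
      _ = _ := by rw [Finset.card_univ]
  have hM0 : (0 : ℝ) ≤ M := by positivity
  have hc0 : (0 : ℝ) ≤ Fintype.card ι := by positivity
  calc ‖∑ i, ∑ k, ψ (c * w i * w k)‖ ^ 2 ≤ (Fintype.card ι : ℝ) * ∑ i : ι, ‖F (w i)‖ ^ 2 := hCS
    _ ≤ (Fintype.card ι : ℝ) * (M * ((Fintype.card ι : ℝ) * n * M)) := by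
        gcongr
        exact hfib.trans (by gcongr)
    _ = _ := by ring

end Crest.Agent.EF
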