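import Crest.Agent.Lib.EF.SubsetChar
import Crest.Agent.Lib.EF.PrimeCount
import Crest.Agent.Lib.EF.BadSmall

namespace Crest.Agent.EF

open Finset

lemma fbound_numeric {X ν δ f U φ : ℝ} (hX : 0 ≤ X) (hν : 1 ≤ ν) (hδ : 0 ≤ δ) (hf : 0 ≤ f)
    (hU : 0 < U) (hφ : ν ≤ 2 * φ) (hφ0 : 0 < φ) (h1 : f * φ ≤ U * (X + φ * δ))
    (hX4 : (X * 4) ^ 4 ≤ ν) (hδν : δ ^ 4 * ν ^ 3 ≤ 1 / 16) :
    f ^ 4 * ν ^ 3 ≤ U ^ 4 := by
  have hν0 : 0 < ν := by linarith
  -- f ≤ U (2 X / ν + δ)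
  have h2 : f ≤ U * (2 * X / ν + δ) := by
    have h3 : f ≤ U * (X / φ + δ) := by
      have : f * φ ≤ (U * (X / φ + δ)) * φ := by
        calc f * φ ≤ U * (X + φ * δ) := h1
          _ = (U * (X / φ + δ)) * φ := by field_simp
      exact le_of_mul_le_mul_right this hφ0
    have h4 : X / φ ≤ 2 * X / ν := by
      rw [div_le_div_iff₀ hφ0 hν0]
      nlinarith
    have : U * (X / φ + δ) ≤ U * (2 * X / ν + δ) := by gcongr
    linarith
  set x := 2 * X / ν with hx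
  have hx0 : 0 ≤ x := by positivity
  have h5 : (x + δ) ^ 4 ≤ 8 * (x ^ 4 + δ ^ 4) := by
    have h6 : (x + δ) ^ 2 ≤ 2 * (x ^ 2 + δ ^ 2) := by nlinarith [sq_nonneg (x - δ)]
    have h7 : (x ^ 2 + δ ^ 2) ^ 2 ≤ 2 * (x ^ 4 + δ ^ 4) := by
      nlinarith [sq_nonneg (x ^ 2 - δ ^ 2)]
    have h8 : ((x + δ) ^ 2) ^ 2 ≤ (2 * (x ^ 2 + δ ^ 2)) ^ 2 := by
      apply pow_le_pow_left₀ (by positivity) h6
    nlinarith
  have h9 : x ^ 4 * ν ^ 3 ≤ 1 / 16 := by
    have : x ^ 4 * ν ^ 3 = (X * 4) ^ 4 / (16 * ν) := by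
      rw [hx]
      field_simp
      ring
    rw [this, div_le_iff₀ (by positivity)]
    linarith
  have h10 : (x + δ) ^ 4 * ν ^ 3 ≤ 1 := by
    have hν3 : 0 < ν ^ 3 := by positivity
    calc (x + δ) ^ 4 * ν ^ 3 ≤ 8 * (x ^ 4 + δ ^ 4) * ν ^ 3 := by gcongr
      _ = 8 * (x ^ 4 * ν ^ 3) + 8 * (δ ^ 4 * ν ^ 3) := by ring
      _ ≤ 1 := by linarith
  calc f ^ 4 * ν ^ 3 ≤ (U * (x + δ)) ^ 4 * ν ^ 3 := by gcongr
    _ = U ^ 4 * ((x + δ) ^ 4 * ν ^ 3) := by ring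
    _ ≤ U ^ 4 * 1 := by gcongr
    _ = U ^ 4 := mul_one _

/-- TASK D8. The sup bound for the subset-product multiplicities (D1, D5, D6). -/
theorem f_bound (ℓ : ℕ) (hℓ : 100 ≤ ℓ) (p : Fin (Om ℓ) → ℕ) (hp : ∀ i, p i ∈ PP ℓ)
    (hd : Designed ℓ p) (s : ℕ) (hs1 : 1 ≤ s) (hs : s ≤ 2 ^ KK ℓ) (hr : Rough (N0 ℓ) s)
    {n : ℕ} [NeZero n] (hns : n ∣ s) (hn1 : 1 < n) (a : ZMod n) :
    (((Finset.univ.filter (fun i => ¬ p i ∣ s)).powerset.filter
        (fun I => ∏ i ∈ I, (p i : ZMod n) = a)).card : ℝ) ^ 4 * (n : ℝ) ^ 3 ≤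
      ((2 : ℝ) ^ (Finset.univ.filter (fun i => ¬ p i ∣ s)).card) ^ 4 := by
  classical
  set A : Finset (Fin (Om ℓ)) := Finset.univ.filter (fun i => ¬ p i ∣ s) with hA
  have hnle : n ≤ 2 ^ KK ℓ := (Nat.le_of_dvd (by omega) hns).trans hs
  have hrn : Rough (N0 ℓ) n := fun q hq hqn => hr q hq (hqn.trans hns)
  have hprime : ∀ i, (p i).Prime := fun i => (Finset.mem_filter.1 (hp i)).2
  have hu : ∀ i ∈ A, IsUnit (p i : ZMod n) := by
    intro i hi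
    have hi' : ¬ p i ∣ s := (Finset.mem_filter.1 hi).2
    refine (ZMod.isUnit_iff_coprime _ _).2 ?_
    rw [Nat.Prime.coprime_iff_not_dvd (hprime i)]
    exact fun h => hi' (h.trans hns)
  have h1 := card_subset_prod_le A (fun i => (p i : ZMod n)) hu a
  set X : ℕ := ((Finset.univ : Finset (DirichletCharacter ℂ n)).filter fun χ => ¬ Good ℓ s χ).card
    with hX
  have hX4 : ((X : ℝ) * 4) ^ 4 ≤ n := bad_small ℓ hℓ s n hs1 hns hn1 hnle hrn
  have hcardχ : ((Finset.univ : Finset (DirichletCharacter ℂ n)).card : ℝ) = n.totient := by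
    rw [Finset.card_univ, ← Nat.card_eq_fintype_card,
      DirichletCharacter.card_eq_totient_of_hasEnoughRootsOfUnity]
  set δ : ℝ := (1 / 2 : ℝ) ^ (3 * KK ℓ) with hδ
  have hδ0 : 0 ≤ δ := by positivity
  -- the splitting of the character sum
  have h2 : ∑ χ : DirichletCharacter ℂ n, ∏ i ∈ A, ‖1 + χ (p i : ZMod n)‖ ≤
      (2 : ℝ) ^ A.card * ((X : ℝ) + (n.totient : ℝ) * δ) := by
    have h3 : ∀ χ : DirichletCharacter ℂ n, ∏ i ∈ A, ‖1 + χ (p i : ZMod n)‖ ≤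
        (2 : ℝ) ^ A.card * (δ + if ¬ Good ℓ s χ then 1 else 0) := by
      intro χ
      have h4 : ∏ i ∈ A, ‖1 + χ (p i : ZMod n)‖ =
          (2 : ℝ) ^ A.card * ∏ i ∈ A, (‖1 + χ (p i : ZMod n)‖ / 2) := by
        rw [← Finset.prod_const, ← Finset.prod_mul_distrib]
        refine Finset.prod_congr rfl fun i _ => ?_
        ring
      rw [h4]
      apply mul_le_mul_of_nonneg_left _ (by positivity)
      by_cases hg : Good ℓ s χ
      · simp only [hg, not_true_eq_false, if_false, add_zero]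
        exact hd s hs1 hs n hns hn1 χ hg
      · simp only [hg, not_false_eq_true, if_true]
        have h5 : ∏ i ∈ A, (‖1 + χ (p i : ZMod n)‖ / 2) ≤ 1 := by
          apply Finset.prod_le_one
          · intro i _; positivity
          · intro i _
            have h6 : ‖1 + χ (p i : ZMod n)‖ ≤ 1 + 1 := by
              calc _ ≤ ‖(1 : ℂ)‖ + ‖χ (p i : ZMod n)‖ := norm_add_le _ _
                _ ≤ 1 + 1 := by
                    rw [norm_one]
                    gcongr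
                    exact DirichletCharacter.norm_le_one χ _
            linarith
        linarith
    calc ∑ χ : DirichletCharacter ℂ n, ∏ i ∈ A, ‖1 + χ (p i : ZMod n)‖
        ≤ ∑ χ : DirichletCharacter ℂ n, (2 : ℝ) ^ A.card * (δ + if ¬ Good ℓ s χ then 1 else 0) :=
          Finset.sum_le_sum fun χ _ => h3 χ
      _ = _ := by
          rw [← Finset.mul_sum, Finset.sum_add_distrib, Finset.sum_const, nsmul_eq_mul, hcardχ,
            Finset.sum_ite, Finset.sum_const_zero, add_zero, Finset.sum_const, nsmul_eq_mul,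
            mul_one, ← hX]
          ring
  have hn1r : (1 : ℝ) ≤ n := by exact_mod_cast hn1.le
  have htot : (n : ℝ) ≤ 2 * n.totient := by
    exact_mod_cast totient_rough ℓ hℓ (by omega) hnle hrn
  have htot0 : (0 : ℝ) < n.totient := by
    have : 0 < n.totient := Nat.totient_pos.2 (by omega)
    exact_mod_cast this
  have hKpos : 1 ≤ KK ℓ := Nat.one_le_two_pow
  have hδν : δ ^ 4 * (n : ℝ) ^ 3 ≤ 1 / 16 := by
    have hν : (n : ℝ) ≤ 2 ^ KK ℓ := by exact_mod_cast hnle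
    have h3 : (n : ℝ) ^ 3 ≤ 2 ^ (3 * KK ℓ) := by
      calc (n : ℝ) ^ 3 ≤ ((2 : ℝ) ^ KK ℓ) ^ 3 := by gcongr
        _ = 2 ^ (3 * KK ℓ) := by rw [← pow_mul]; congr 1; ring
    have h4 : δ * 2 ^ (3 * KK ℓ) = 1 := by
      rw [hδ, ← mul_pow]
      norm_num
    have h5 : δ ≤ (1 / 2 : ℝ) ^ 3 := by
      rw [hδ]
      apply pow_le_pow_of_le_one (by norm_num) (by norm_num)
      omega
    have h6 : δ ^ 3 ≤ 1 / 16 := by
      calc δ ^ 3 ≤ ((1 / 2 : ℝ) ^ 3) ^ 3 := by gcongr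
        _ ≤ 1 / 16 := by norm_num
    calc δ ^ 4 * (n : ℝ) ^ 3 ≤ δ ^ 4 * 2 ^ (3 * KK ℓ) := by gcongr
      _ = δ ^ 3 * (δ * 2 ^ (3 * KK ℓ)) := by ring
      _ = δ ^ 3 := by rw [h4, mul_one]
      _ ≤ 1 / 16 := h6
  exact fbound_numeric (by positivity) hn1r hδ0 (by positivity) (by positivity) htot htot0
    (h1.trans h2) hX4 hδν

end Crest.Agent.EF
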