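import Crest.Agent.Lib.EF.Bilinear
import Crest.Agent.Lib.EF.FBound

namespace Crest.Agent.EF

open Finset

theorem coeff_bound (ℓ : ℕ) (hℓ : 100 ≤ ℓ) (p : Fin (Om ℓ) → ℕ) (hp : ∀ i, p i ∈ PP ℓ)
    (hd : Designed ℓ p) (s : ℕ) (hs1 : 1 ≤ s) (hs : s ≤ 2 ^ KK ℓ) (hr : Rough (N0 ℓ) s)
    {n : ℕ} [NeZero n] (hns : n ∣ s) (hn1 : 1 < n) (c : ZMod n) (hc : IsUnit c) :
    ‖∑ I : ↥(Finset.univ.filter (fun i => ¬ p i ∣ s)).powerset,
        ∑ K : ↥(Finset.univ.filter (fun i => ¬ p i ∣ s)).powerset,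
          ZMod.stdAddChar (c * (∏ i ∈ I.1, (p i : ZMod n)) * (∏ i ∈ K.1, (p i : ZMod n)))‖ ^ 4
        * (n : ℝ) ≤ ((2 : ℝ) ^ (Finset.univ.filter (fun i => ¬ p i ∣ s)).card) ^ 8 := by
  classical
  set A : Finset (Fin (Om ℓ)) := Finset.univ.filter (fun i => ¬ p i ∣ s) with hA
  let w : ↥A.powerset → ZMod n := fun I => ∏ i ∈ I.1, (p i : ZMod n)
  obtain ⟨a, -, ha⟩ := Finset.exists_max_image (Finset.univ : Finset (ZMod n))
    (fun a => (Finset.univ.filter fun i => w i = a).card) ⟨0, Finset.mem_univ _⟩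
  have hbil := bilinear_bound c hc w _ (fun b => ha b (Finset.mem_univ _))
  have hf := f_bound ℓ hℓ p hp hd s hs1 hs hr hns hn1 a
  rw [← hA] at hf
  have hM : (Finset.univ.filter fun i => w i = a).card =
      (A.powerset.filter fun I => ∏ i ∈ I, (p i : ZMod n) = a).card := by
    refine Finset.card_bij (fun i _ => i.1) ?_ ?_ ?_
    · intro i hi
      simp only [Finset.mem_filter, Finset.mem_univ, true_and] at hi
      exact Finset.mem_filter.2 ⟨i.2, hi⟩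
    · intro i _ j _ h
      exact Subtype.ext h
    · intro I hI
      obtain ⟨h1, h2⟩ := Finset.mem_filter.1 hI
      exact ⟨⟨I, h1⟩, Finset.mem_filter.2 ⟨Finset.mem_univ _, h2⟩, rfl⟩
  rw [← hM] at hf
  have hcard : (Fintype.card ↥A.powerset : ℝ) = (2 : ℝ) ^ A.card := by
    rw [Fintype.card_coe, Finset.card_powerset]
    push_cast
    rfl
  rw [hcard] at hbil
  set M : ℕ := (Finset.univ.filter fun i => w i = a).card with hMdef
  set T : ℝ := ‖∑ I : ↥A.powerset, ∑ K : ↥A.powerset,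
    ZMod.stdAddChar (c * (∏ i ∈ I.1, (p i : ZMod n)) * (∏ i ∈ K.1, (p i : ZMod n)))‖ with hT
  set U : ℝ := (2 : ℝ) ^ A.card with hU
  have hn0 : (0 : ℝ) ≤ n := by positivity
  have hT0 : 0 ≤ T ^ 2 := by positivity
  have hbil' : T ^ 2 ≤ U ^ 2 * n * (M : ℝ) ^ 2 := hbil
  calc T ^ 4 * n = (T ^ 2) ^ 2 * n := by ring
    _ ≤ (U ^ 2 * n * (M : ℝ) ^ 2) ^ 2 * n := by gcongr
    _ = U ^ 4 * ((M : ℝ) ^ 4 * (n : ℝ) ^ 3) := by ring
    _ ≤ U ^ 4 * U ^ 4 := by gcongr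
    _ = U ^ 8 := by ring

end Crest.Agent.EF
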