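import Mathlib

/-!
# Definitions for the proof of S0025 (unit fractions, `O(log log b)` terms)

See `BLUEPRINT.md` in this folder.
-/

namespace Crest.Agent.EF

/-- All prime factors of `s` exceed `N₀`. -/
def Rough (N₀ s : ℕ) : Prop := ∀ p : ℕ, p.Prime → p ∣ s → N₀ < p

/-- `Rep N₀ S H`: every rough `1 ≤ s ≤ S` divides a sum of 13 distinct divisors of `H`. -/
def Rep (N₀ S H : ℕ) : Prop :=
  ∀ s : ℕ, 1 ≤ s → s ≤ S → Rough N₀ s →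
    ∃ t : Fin 13 → ℕ, Function.Injective t ∧ (∀ j, t j ∣ H) ∧ s ∣ ∑ j, t j

/-- `K = 2 ^ ℓ`. -/
def KK (ℓ : ℕ) : ℕ := 2 ^ ℓ
/-- `y = K ^ 16`. -/
def yy (ℓ : ℕ) : ℕ := 2 ^ (16 * ℓ)
/-- `N₀ = K / 8`. -/
def N0 (ℓ : ℕ) : ℕ := 2 ^ (ℓ - 3)
/-- Primes in `(N₀, y]`. -/
def PP (ℓ : ℕ) : Finset ℕ := (Finset.Ioc (N0 ℓ) (yy ℓ)).filter Nat.Prime
/-- Length of the design sequence. -/
def Om (ℓ : ℕ) : ℕ := 32 * KK ℓ

/-- The character sum over the primes of `PP ℓ` not dividing `s`. -/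
noncomputable def VV (ℓ s : ℕ) {n : ℕ} (χ : DirichletCharacter ℂ n) : ℂ :=
  ∑ p ∈ (PP ℓ).filter (fun p => ¬ p ∣ s), χ (p : ZMod n)

/-- A character is good (w.r.t. `s`) if this sum has no more than half its maximal size. -/
def Good (ℓ s : ℕ) {n : ℕ} (χ : DirichletCharacter ℂ n) : Prop :=
  ‖VV ℓ s χ‖ ≤ ((PP ℓ).card : ℝ) / 2

noncomputable instance (ℓ s : ℕ) {n : ℕ} (χ : DirichletCharacter ℂ n) : Decidable (Good ℓ s χ) :=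
  Classical.dec _

/-- The design property of a sequence of primes `p : Fin (Om ℓ) → ℕ`: for each `s ≤ 2 ^ K`, each
`n ∣ s`, `1 < n`, and each good character mod `n`, the product of `‖1 + χ (p i)‖ / 2` over the
indices `i` with `p i ∤ s` is at most `2 ^ (-3K)`. -/
def Designed (ℓ : ℕ) (p : Fin (Om ℓ) → ℕ) : Prop :=
  ∀ s : ℕ, 1 ≤ s → s ≤ 2 ^ KK ℓ → ∀ (n : ℕ), n ∣ s → 1 < n → ∀ χ : DirichletCharacter ℂ n,
    Good ℓ s χ →
    ∏ i ∈ Finset.univ.filter (fun i => ¬ p i ∣ s), (‖1 + χ (p i : ZMod n)‖ / 2) ≤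
      (1 / 2 : ℝ) ^ (3 * KK ℓ)

end Crest.Agent.EF
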