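import Crest.Agent.Lib.EF.Defs

namespace Crest.Agent.EF

open Finset

/-- TASK D3. Averaging: existence of a sequence on which all the products are small. -/
theorem exists_design (P : Finset ℕ) (hP : P.Nonempty) (𝓧 : Finset (ℕ → ℝ)) (A : ℝ) (hA : 0 ≤ A)
    (hX : ∀ X ∈ 𝓧, ∀ p, 0 ≤ X p) (hsum : ∀ X ∈ 𝓧, ∑ p ∈ P, X p ≤ A * P.card) (Ω : ℕ) :
    ∃ p : Fin Ω → ℕ, (∀ i, p i ∈ P) ∧ ∀ X ∈ 𝓧, ∏ i, X (p i) ≤ 𝓧.card * A ^ Ω := by
  classical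
  set Seq : Finset (Fin Ω → ℕ) := Fintype.piFinset (fun _ => P) with hSeq
  have hcard : (Seq.card : ℝ) = (P.card : ℝ) ^ Ω := by
    rw [hSeq, Fintype.card_piFinset]
    simp
  have hPpos : (0 : ℝ) < P.card := by exact_mod_cast hP.card_pos
  have hne : Seq.Nonempty := by
    obtain ⟨x, hx⟩ := hP
    exact ⟨fun _ => x, Fintype.mem_piFinset.2 fun _ => hx⟩
  have htotal : ∑ p ∈ Seq, ∑ X ∈ 𝓧, ∏ i, X (p i) ≤ ∑ _p ∈ Seq, (𝓧.card * A ^ Ω : ℝ) := by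
    rw [Finset.sum_comm]
    have h1 : ∀ X ∈ 𝓧, ∑ p ∈ Seq, ∏ i, X (p i) ≤ (A * P.card) ^ Ω := by
      intro X hXm
      have h2 : ∑ p ∈ Seq, ∏ i, X (p i) = ∏ _i : Fin Ω, ∑ q ∈ P, X q := by
        rw [Finset.prod_univ_sum]
      rw [h2, Finset.prod_const, Finset.card_univ, Fintype.card_fin]
      exact pow_le_pow_left₀ (Finset.sum_nonneg fun p _ => hX X hXm p) (hsum X hXm) _
    calc ∑ X ∈ 𝓧, ∑ p ∈ Seq, ∏ i, X (p i) ≤ ∑ _X ∈ 𝓧, (A * P.card) ^ Ω :=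
          Finset.sum_le_sum h1
      _ = ∑ _p ∈ Seq, (𝓧.card * A ^ Ω : ℝ) := by
          rw [Finset.sum_const, Finset.sum_const, nsmul_eq_mul, nsmul_eq_mul, hcard, mul_pow]
          ring
  obtain ⟨p, hp, hple⟩ := Finset.exists_le_of_sum_le hne htotal
  refine ⟨p, fun i => (Fintype.mem_piFinset.1 hp) i, fun X hXm => ?_⟩
  refine le_trans ?_ hple
  exact Finset.single_le_sum (f := fun X : ℕ → ℝ => ∏ i, X (p i))
    (fun Y hY => Finset.prod_nonneg fun i _ => hX Y hY _) hXm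

end Crest.Agent.EF
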