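import Crest.Agent.Lib.EF.DesignAvg
import Crest.Agent.Lib.EF.PrimeCount

namespace Crest.Agent.EF

open Finset

/-- The weight function attached to `(s, χ)`. -/
noncomputable def designedX (s : ℕ) {n : ℕ} (χ : DirichletCharacter ℂ n) : ℕ → ℝ :=
  fun q => if q ∣ s then 1 else ‖1 + χ (q : ZMod n)‖ ^ 2 / 4

lemma designedX_nonneg (s : ℕ) {n : ℕ} (χ : DirichletCharacter ℂ n) (q : ℕ) :
    0 ≤ designedX s χ q := by
  unfold designedX
  split_ifs <;> positivity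

lemma designed_card_primeFactors (s K : ℕ) (hs : 1 ≤ s) (hK : s ≤ 2 ^ K) :
    s.primeFactors.card ≤ K := by
  have h1 : ∏ q ∈ s.primeFactors, q ∣ s := Nat.prod_primeFactors_dvd s
  have h2 : 2 ^ s.primeFactors.card ≤ ∏ q ∈ s.primeFactors, q := by
    rw [← Finset.prod_const]
    exact Finset.prod_le_prod' fun q hq => (Nat.prime_of_mem_primeFactors hq).two_le
  have h3 := Nat.le_of_dvd (by omega) h1
  exact (Nat.pow_le_pow_iff_right (by norm_num)).1 (h2.trans (h3.trans hK))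

lemma designed_norm_sq {z : ℂ} (hz : ‖z‖ = 1) : ‖1 + z‖ ^ 2 / 4 = (1 + z.re) / 2 := by
  have h1 : ‖1 + z‖ ^ 2 = Complex.normSq (1 + z) := (Complex.normSq_eq_norm_sq _).symm
  have h2 : Complex.normSq z = 1 := by rw [Complex.normSq_eq_norm_sq, hz]; norm_num
  rw [h1]
  rw [Complex.normSq_apply] at h2 ⊢
  simp only [Complex.add_re, Complex.one_re, Complex.add_im, Complex.one_im]
  nlinarith

lemma designed_twenty (ℓ : ℕ) (hℓ : 100 ≤ ℓ) : (20 * KK ℓ : ℝ) ≤ (PP ℓ).card := by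
  have h := card_PP ℓ hℓ
  have hℓpos : (0 : ℝ) < ℓ := by
    have : 0 < ℓ := by omega
    exact_mod_cast this
  have h2 : (640 * ℓ * KK ℓ : ℕ) ≤ yy ℓ := by
    have h3 : ℓ ≤ 2 ^ ℓ := Nat.lt_two_pow_self.le
    have h4 : 640 ≤ 2 ^ 10 := by norm_num
    calc 640 * ℓ * KK ℓ ≤ 2 ^ 10 * 2 ^ ℓ * 2 ^ ℓ := by
          unfold KK
          gcongr
      _ = 2 ^ (10 + ℓ + ℓ) := by rw [pow_add, pow_add]
      _ ≤ yy ℓ := by
          unfold yy
          apply Nat.pow_le_pow_right (by norm_num)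
          omega
  have h3 : (640 * ℓ * KK ℓ : ℝ) ≤ (yy ℓ : ℝ) := by exact_mod_cast h2
  have h4 : (32 * ℓ : ℝ) * (20 * KK ℓ) ≤ 32 * ℓ * (PP ℓ).card := by
    calc (32 * ℓ : ℝ) * (20 * KK ℓ) = 640 * ℓ * KK ℓ := by ring
      _ ≤ _ := h3.trans h
  exact le_of_mul_le_mul_left h4 (by positivity)

lemma designedX_sum (ℓ : ℕ) (hℓ : 100 ≤ ℓ) (s : ℕ) (hs1 : 1 ≤ s) (hs : s ≤ 2 ^ KK ℓ) (n : ℕ)
    (hns : n ∣ s) (χ : DirichletCharacter ℂ n) (hg : Good ℓ s χ) :
    ∑ q ∈ PP ℓ, designedX s χ q ≤ (4 / 5 : ℝ) * (PP ℓ).card := by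
  classical
  have hPrime : ∀ q ∈ PP ℓ, q.Prime := fun q hq => (Finset.mem_filter.1 hq).2
  have hNZ : NeZero n := ⟨by
    rintro rfl
    have := Nat.eq_zero_of_zero_dvd hns
    omega⟩
  set Q := (PP ℓ).filter (fun q => ¬ q ∣ s) with hQ
  have hsplit : ∑ q ∈ PP ℓ, designedX s χ q =
      ((PP ℓ).filter (fun q => q ∣ s)).card + ∑ q ∈ Q, (1 + (χ (q : ZMod n)).re) / 2 := by
    rw [← Finset.sum_filter_add_sum_filter_not (PP ℓ) (fun q => q ∣ s)]
    congr 1
    · rw [Finset.card_eq_sum_ones]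
      push_cast
      refine Finset.sum_congr rfl fun q hq => ?_
      simp [designedX, (Finset.mem_filter.1 hq).2]
    · refine Finset.sum_congr rfl fun q hq => ?_
      obtain ⟨hq1, hq2⟩ := Finset.mem_filter.1 hq
      have hcop : Nat.Coprime q n := by
        rw [Nat.Prime.coprime_iff_not_dvd (hPrime q hq1)]
        exact fun h => hq2 (h.trans hns)
      have hu : IsUnit (q : ZMod n) := (ZMod.isUnit_iff_coprime _ _).2 hcop
      have hnorm : ‖χ (q : ZMod n)‖ = 1 := by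
        obtain ⟨u, hu⟩ := hu
        rw [← hu]
        exact DirichletCharacter.unit_norm_eq_one χ u
      simp only [designedX, if_neg hq2]
      exact designed_norm_sq hnorm
  rw [hsplit]
  have h1 : (((PP ℓ).filter (fun q => q ∣ s)).card : ℝ) ≤ KK ℓ := by
    have hsub : (PP ℓ).filter (fun q => q ∣ s) ⊆ s.primeFactors := by
      intro q hq
      obtain ⟨hq1, hq2⟩ := Finset.mem_filter.1 hq
      exact Nat.mem_primeFactors.2 ⟨hPrime q hq1, hq2, by omega⟩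
    have := (Finset.card_le_card hsub).trans (designed_card_primeFactors s (KK ℓ) hs1 hs)
    exact_mod_cast this
  have h2 : ∑ q ∈ Q, (1 + (χ (q : ZMod n)).re) / 2 =
      (Q.card : ℝ) / 2 + (∑ q ∈ Q, χ (q : ZMod n)).re / 2 := by
    rw [Complex.re_sum, ← Finset.sum_div, Finset.sum_add_distrib]
    simp [add_div]
  have h3 : (∑ q ∈ Q, χ (q : ZMod n)).re ≤ ((PP ℓ).card : ℝ) / 2 :=
    (Complex.re_le_norm _).trans hg
  have h4 : (Q.card : ℝ) ≤ (PP ℓ).card := by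
    exact_mod_cast Finset.card_le_card (Finset.filter_subset _ _)
  have h5 := designed_twenty ℓ hℓ
  rw [h2]
  linarith

/-- The family of all the weights. -/
noncomputable def designedFamily (ℓ : ℕ) : Finset (ℕ → ℝ) := by
  classical
  exact (Finset.range (2 ^ KK ℓ + 1)).biUnion fun s =>
    (Finset.range (2 ^ KK ℓ)).biUnion fun n' =>
      ((Finset.univ : Finset (DirichletCharacter ℂ (n' + 1))).filter
        (fun χ => 1 ≤ s ∧ (n' + 1) ∣ s ∧ Good ℓ s χ)).image (designedX s)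

lemma designedFamily_card (ℓ : ℕ) :
    (designedFamily ℓ).card ≤ (2 ^ KK ℓ + 1) * (2 ^ KK ℓ * 2 ^ KK ℓ) := by
  classical
  unfold designedFamily
  refine (Finset.card_biUnion_le_card_mul _ _ (2 ^ KK ℓ * 2 ^ KK ℓ) ?_).trans (by simp)
  intro s _
  refine (Finset.card_biUnion_le_card_mul _ _ (2 ^ KK ℓ) ?_).trans (by simp)
  intro n' hn'
  refine Finset.card_image_le.trans ((Finset.card_filter_le _ _).trans ?_)
  rw [Finset.card_univ, ← Nat.card_eq_fintype_card,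
    DirichletCharacter.card_eq_totient_of_hasEnoughRootsOfUnity]
  have h1 : n' < 2 ^ KK ℓ := Finset.mem_range.1 hn'
  exact (Nat.totient_le _).trans h1

lemma designed_numeric (K : ℕ) (hK : 1 ≤ K) :
    (((2 ^ K + 1) * (2 ^ K * 2 ^ K) : ℕ) : ℝ) * (4 / 5 : ℝ) ^ (32 * K) ≤
      ((1 / 2 : ℝ) ^ (3 * K)) ^ 2 := by
  have h1 : (4 / 5 : ℝ) ^ (32 * K) ≤ (1 / 2 : ℝ) ^ (10 * K) := by
    rw [pow_mul, pow_mul]
    apply pow_le_pow_left₀ (by positivity)
    norm_num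
  have h2 : (((2 ^ K + 1) * (2 ^ K * 2 ^ K) : ℕ) : ℝ) ≤ 2 * (2 : ℝ) ^ (3 * K) := by
    push_cast
    have h3 : (1 : ℝ) ≤ 2 ^ K := one_le_pow₀ (by norm_num)
    have h4 : (2 : ℝ) ^ (3 * K) = 2 ^ K * (2 ^ K * 2 ^ K) := by
      rw [show 3 * K = K + (K + K) by ring, pow_add, pow_add]
    rw [h4]
    have h5 : (0 : ℝ) < 2 ^ K * 2 ^ K := by positivity
    nlinarith
  have h3 : (2 : ℝ) ^ (3 * K) * (1 / 2 : ℝ) ^ (10 * K) = (1 / 2 : ℝ) ^ (7 * K) := by
    have : (1 / 2 : ℝ) ^ (10 * K) = (1 / 2 : ℝ) ^ (3 * K) * (1 / 2 : ℝ) ^ (7 * K) := by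
      rw [← pow_add]; congr 1; ring
    rw [this, ← mul_assoc, ← mul_pow]
    norm_num
  have h4 : ((1 / 2 : ℝ) ^ (3 * K)) ^ 2 = (1 / 2 : ℝ) ^ (6 * K) := by
    rw [← pow_mul]; congr 1; ring
  have h5 : (2 : ℝ) * (1 / 2 : ℝ) ^ K ≤ 1 := by
    have : (1 / 2 : ℝ) ^ K ≤ (1 / 2 : ℝ) ^ 1 :=
      pow_le_pow_of_le_one (by norm_num) (by norm_num) hK
    linarith
  rw [h4]
  calc _ ≤ (2 * (2 : ℝ) ^ (3 * K)) * (1 / 2 : ℝ) ^ (10 * K) := by gcongr
    _ = 2 * (1 / 2 : ℝ) ^ (7 * K) := by rw [mul_assoc, h3]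
    _ = (2 * (1 / 2 : ℝ) ^ K) * (1 / 2 : ℝ) ^ (6 * K) := by
        rw [show 7 * K = K + 6 * K by ring, pow_add]
        ring
    _ ≤ 1 * (1 / 2 : ℝ) ^ (6 * K) := by gcongr
    _ = _ := one_mul _

/-- TASK D7. A designed sequence exists (D3 + D4). -/
theorem exists_designed (ℓ : ℕ) (hℓ : 100 ≤ ℓ) :
    ∃ p : Fin (Om ℓ) → ℕ, (∀ i, p i ∈ PP ℓ) ∧ Designed ℓ p := by
  classical
  have hPne : (PP ℓ).Nonempty := by
    rw [← Finset.card_pos]
    have h := designed_twenty ℓ hℓ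
    have hK : (0 : ℝ) < KK ℓ := by
      unfold KK
      positivity
    have : (0 : ℝ) < (PP ℓ).card := by linarith
    exact_mod_cast this
  have hKpos : 1 ≤ KK ℓ := Nat.one_le_two_pow
  obtain ⟨p, hp, hpX⟩ := exists_design (PP ℓ) hPne (designedFamily ℓ) (4 / 5) (by norm_num)
    (by
      intro X hX q
      simp only [designedFamily, Finset.mem_biUnion, Finset.mem_image, Finset.mem_filter] at hX
      obtain ⟨s, -, n', -, χ, -, rfl⟩ := hX
      exact designedX_nonneg s χ q)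
    (by
      intro X hX
      simp only [designedFamily, Finset.mem_biUnion, Finset.mem_image, Finset.mem_filter,
        Finset.mem_range] at hX
      obtain ⟨s, hs, n', -, χ, ⟨-, hs1, hns, hg⟩, rfl⟩ := hX
      exact designedX_sum ℓ hℓ s hs1 (by omega) (n' + 1) hns χ hg)
    (Om ℓ)
  refine ⟨p, hp, ?_⟩
  intro s hs1 hs n hns hn1 χ hg
  obtain ⟨n', rfl⟩ : ∃ n', n = n' + 1 := ⟨n - 1, by omega⟩
  have hmem : designedX s χ ∈ designedFamily ℓ := by
    simp only [designedFamily, Finset.mem_biUnion, Finset.mem_image, Finset.mem_filter,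
      Finset.mem_range, Finset.mem_univ, true_and]
    refine ⟨s, by omega, n', ?_, χ, ⟨hs1, hns, hg⟩, rfl⟩
    have := Nat.le_of_dvd (by omega) hns
    omega
  have hle := hpX _ hmem
  set A : Finset (Fin (Om ℓ)) := Finset.univ.filter (fun i => ¬ p i ∣ s) with hA
  have hprod : ∏ i, designedX s χ (p i) =
      (∏ i ∈ A, (‖1 + χ (p i : ZMod (n' + 1))‖ / 2)) ^ 2 := by
    rw [← Finset.prod_pow, hA, Finset.prod_filter]
    refine Finset.prod_congr rfl fun i _ => ?_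
    simp only [designedX]
    by_cases h : p i ∣ s
    · simp [h]
    · simp only [h, if_false, not_false_eq_true, if_true]
      ring
  rw [hprod] at hle
  have hcard : ((designedFamily ℓ).card : ℝ) * (4 / 5 : ℝ) ^ Om ℓ ≤
      ((1 / 2 : ℝ) ^ (3 * KK ℓ)) ^ 2 := by
    refine le_trans ?_ (designed_numeric (KK ℓ) hKpos)
    have hOm : Om ℓ = 32 * KK ℓ := rfl
    rw [hOm]
    apply mul_le_mul_of_nonneg_right _ (by positivity)
    exact_mod_cast designedFamily_card ℓ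
  have hfinal := hle.trans hcard
  have h0 : 0 ≤ ∏ i ∈ A, (‖1 + χ (p i : ZMod (n' + 1))‖ / 2) :=
    Finset.prod_nonneg fun i _ => by positivity
  exact (pow_le_pow_iff_left₀ h0 (by positivity) (by norm_num)).1 hfinal

end Crest.Agent.EF
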