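import Crest.Agent.Lib.EF.Defs

/-!
# Task B1 of the S0025 blueprint.
-/

namespace Crest.Agent.EF

open Finset

/-- The residue chosen for a prime `p ≤ N₀`. -/
lemma digit_choice_residue (N₀ g N s₀ q₀ : ℕ) (hg2 : 2 ∣ g) (hN : Rough N₀ N) (hNe : N = s₀ + g * q₀)
    (p : ℕ) : ∃ l : ℕ, p.Prime → p ≤ N₀ →
      (l : ZMod p) ≠ (q₀ : ZMod p) ∧ (s₀ : ZMod p) + (l : ZMod p) * (g : ZMod p) ≠ 0 := by
  by_cases hp : p.Prime ∧ p ≤ N₀
  · obtain ⟨hp, hpN⟩ := hp
    have : Fact p.Prime := ⟨hp⟩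
    have hNp : (N : ZMod p) ≠ 0 := by
      intro h
      have h' : p ∣ N := (ZMod.natCast_eq_zero_iff N p).mp h
      have := hN p hp h'
      omega
    have hNe' : (N : ZMod p) = (s₀ : ZMod p) + (g : ZMod p) * (q₀ : ZMod p) := by
      rw [hNe]; push_cast; ring
    by_cases hgp : (g : ZMod p) = 0
    · refine ⟨q₀ + 1, fun _ _ => ⟨?_, ?_⟩⟩
      · push_cast
        simp
      · rw [hgp] at hNe' ⊢
        simp only [mul_zero, add_zero, zero_mul] at hNe' ⊢
        rw [← hNe']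
        exact hNp
    · have hp2 : p ≠ 2 := by
        rintro rfl
        apply hgp
        exact (ZMod.natCast_eq_zero_iff g 2).mpr hg2
      have h2 : (2 : ZMod p) ≠ 0 := by
        intro h
        have h' : ((2 : ℕ) : ZMod p) = 0 := by exact_mod_cast h
        have h'' : p ∣ 2 := (ZMod.natCast_eq_zero_iff 2 p).mp h'
        exact hp2 ((Nat.prime_dvd_prime_iff_eq hp Nat.prime_two).mp h'')
      by_cases hx : (s₀ : ZMod p) + ((q₀ + 1 : ℕ) : ZMod p) * (g : ZMod p) = 0
      · refine ⟨q₀ + 2, fun _ _ => ⟨?_, ?_⟩⟩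
        · push_cast
          simpa using h2
        · intro h
          apply hgp
          push_cast at hx h
          linear_combination h - hx
      · refine ⟨q₀ + 1, fun _ _ => ⟨?_, hx⟩⟩
        push_cast
        simp
  · exact ⟨0, fun h1 h2 => absurd ⟨h1, h2⟩ hp⟩

/-- TASK B1. Choice of a digit by the Chinese remainder theorem. -/
theorem digit_choice (N₀ g N S : ℕ) (hN₀ : 2 ≤ N₀) (hg2 : 2 ∣ g) (hg0 : 0 < g)
    (hS : g * primorial N₀ ≤ S) (hN : Rough N₀ N) (hNS : S < N) :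
    ∃ s q : ℕ, N = s + g * q ∧ 1 ≤ s ∧ s ≤ S ∧ Rough N₀ s ∧ 1 ≤ q ∧ Rough N₀ q := by
  set s₀ := N % g with hs₀
  set q₀ := N / g with hq₀
  have hNe : N = s₀ + g * q₀ := (Nat.mod_add_div N g).symm
  have hs₀lt : s₀ < g := Nat.mod_lt _ hg0
  set R := primorial N₀ with hR
  have hq₀R : R ≤ q₀ := by
    by_contra h
    push Not at h
    have h1 : q₀ + 1 ≤ R := h
    have h2 : g * (q₀ + 1) ≤ g * R := Nat.mul_le_mul_left g h1
    rw [mul_add, mul_one] at h2
    omega
  choose l hl using digit_choice_residue N₀ g N s₀ q₀ hg2 hN hNe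
  let T : Finset ℕ := (Finset.range (N₀ + 1)).filter Nat.Prime
  have hT : ∀ p ∈ T, id p ≠ 0 := fun p hp =>
    (Finset.mem_filter.mp hp).2.ne_zero
  have hTco : Set.Pairwise (↑T) (Function.onFun Nat.Coprime (id : ℕ → ℕ)) := by
    intro p hp r hr hne
    have h1 := (Finset.mem_filter.mp (Finset.mem_coe.mp hp)).2
    have h2 := (Finset.mem_filter.mp (Finset.mem_coe.mp hr)).2
    exact (Nat.coprime_primes h1 h2).mpr hne
  have hlamlt := Nat.chineseRemainderOfFinset_lt_prod l id hT hTco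
  have hlam := (Nat.chineseRemainderOfFinset l id T hT hTco).2
  set lam : ℕ := (Nat.chineseRemainderOfFinset l id T hT hTco : ℕ) with hlamdef
  have hprod : ∏ i ∈ T, id i = R := by
    simp [T, hR, primorial]
  rw [hprod] at hlamlt
  -- residues of `lam`
  have hres : ∀ p : ℕ, p.Prime → p ≤ N₀ → (lam : ZMod p) = (l p : ZMod p) := by
    intro p hp hpN
    have hmem : p ∈ T := Finset.mem_filter.mpr ⟨Finset.mem_range.mpr (by omega), hp⟩
    exact (ZMod.natCast_eq_natCast_iff _ _ _).mpr (hlam p hmem)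
  obtain ⟨q, hq⟩ : ∃ q, q₀ = lam + q := ⟨q₀ - lam, by omega⟩
  have hN' : N = (s₀ + lam * g) + g * q := by
    rw [hNe, hq]; ring
  have hq1 : 1 ≤ q := by omega
  have hs₁ : s₀ + lam * g < g * R := by
    have h1 : lam + 1 ≤ R := hlamlt
    have h2 : g * (lam + 1) ≤ g * R := Nat.mul_le_mul_left g h1
    have h3 : g * (lam + 1) = lam * g + g := by ring
    omega
  have hRs : Rough N₀ (s₀ + lam * g) := by
    intro p hp hdvd
    by_contra hcon
    push Not at hcon
    have h0 : ((s₀ + lam * g : ℕ) : ZMod p) = 0 := (ZMod.natCast_eq_zero_iff _ p).mpr hdvd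
    push_cast at h0
    rw [hres p hp hcon] at h0
    exact (hl p hp hcon).2 h0
  have hRq : Rough N₀ q := by
    intro p hp hdvd
    by_contra hcon
    push Not at hcon
    have h0 : (q : ZMod p) = 0 := (ZMod.natCast_eq_zero_iff _ p).mpr hdvd
    have h1 : (q₀ : ZMod p) = (lam : ZMod p) + (q : ZMod p) := by
      rw [hq]; push_cast; ring
    rw [h0, add_zero, hres p hp hcon] at h1
    exact (hl p hp hcon).1 h1.symm
  have hs1 : 1 ≤ s₀ + lam * g := by
    by_contra h
    have h0 : s₀ + lam * g = 0 := by omega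
    have := hRs 2 Nat.prime_two (by rw [h0]; exact dvd_zero 2)
    omega
  exact ⟨s₀ + lam * g, q, hN', hs1, by omega, hRs, hq1, hRq⟩

end Crest.Agent.EF
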