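import Crest.Agent.Lib.EF.Defs

/-!
# Task B2 of the S0025 blueprint.
-/

namespace Crest.Agent.EF

open Finset

/-- TASK B2. One group of unit fractions out of a divisor sum. -/
theorem group_of_rep {s H : ℕ} (hH : Odd H) (hs : 1 ≤ s) {t : Fin 13 → ℕ}
    (ht : Function.Injective t) (hdvd : ∀ j, t j ∣ H) (hsum : s ∣ ∑ j, t j) :
    ∃ F : Finset ℕ, F.card = 13 ∧ (∀ n ∈ F, Odd n) ∧
      ∑ n ∈ F, (1 : ℚ) / n = (s : ℚ) / H := by
  have hHpos : 0 < H := hH.pos
  have hodd_t : ∀ j, Odd (t j) := fun j => Odd.of_dvd_nat hH (hdvd j)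
  have hodd_sum : Odd (∑ j, t j) := by
    rw [Finset.odd_sum_iff_odd_card_odd]
    have : (Finset.univ.filter fun j : Fin 13 => Odd (t j)) = Finset.univ :=
      Finset.filter_true_of_mem (fun j _ => hodd_t j)
    rw [this]
    decide
  obtain ⟨M, hM⟩ := hsum
  have hMdvd : M ∣ ∑ j, t j := ⟨s, by rw [hM]; ring⟩
  have hModd : Odd M := Odd.of_dvd_nat hodd_sum hMdvd
  have hMpos : 0 < M := hModd.pos
  choose q hq using hdvd
  have hqodd : ∀ j, Odd (q j) := fun j => Odd.of_dvd_nat hH ⟨t j, by rw [hq j]; ring⟩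
  have htpos : ∀ j, 0 < t j := fun j => (hodd_t j).pos
  have hqpos : ∀ j, 0 < q j := fun j => (hqodd j).pos
  let n : Fin 13 → ℕ := fun j => q j * M
  have hn : Function.Injective n := by
    intro i j hij
    have h1 : q i = q j := Nat.eq_of_mul_eq_mul_right hMpos hij
    apply ht
    have h2 : t i * q i = t j * q i := by
      rw [← hq i]
      rw [h1, ← hq j]
    exact Nat.eq_of_mul_eq_mul_right (hqpos i) h2
  refine ⟨Finset.univ.image n, ?_, ?_, ?_⟩
  · rw [Finset.card_image_of_injective _ hn]; simp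
  · intro m hm
    obtain ⟨j, -, rfl⟩ := Finset.mem_image.mp hm
    exact (hqodd j).mul hModd
  · rw [Finset.sum_image (fun a _ b _ h => hn h)]
    have hH0 : (H : ℚ) ≠ 0 := by exact_mod_cast hHpos.ne'
    have hM0 : (M : ℚ) ≠ 0 := by exact_mod_cast hMpos.ne'
    have key : ∀ j, (1 : ℚ) / (n j : ℕ) = (t j : ℚ) / (H * M) := by
      intro j
      have hqj : (q j : ℚ) ≠ 0 := by exact_mod_cast (hqpos j).ne'
      have htj : (t j : ℚ) ≠ 0 := by exact_mod_cast (htpos j).ne'
      have e : (H : ℚ) = t j * q j := by exact_mod_cast hq j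
      simp only [n]
      push_cast
      rw [e]
      field_simp
    rw [Finset.sum_congr rfl (fun j _ => key j), ← Finset.sum_div]
    have e : (∑ j, (t j : ℚ)) = s * M := by exact_mod_cast hM
    rw [e]
    field_simp

end Crest.Agent.EF
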