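import Crest.Agent.Lib.EF.DigitChoice
import Crest.Agent.Lib.EF.Group

/-!
# Task B3 of the S0025 blueprint.
-/

namespace Crest.Agent.EF

open Finset

/-- One group of at most 13 unit fractions, with all 2-adic valuations equal to that of `Q`. -/
lemma digits_group (N₀ S H w : ℕ) (hRep : Rep N₀ S H) (hH : Odd H) (hw : Odd w)
    (s Q : ℕ) (hs1 : 1 ≤ s) (hsS : s ≤ S) (hr : Rough N₀ s) (hQ : 0 < Q) :
    ∃ F : Finset ℕ, F.card ≤ 13 ∧
      (∀ n ∈ F, 0 < n ∧ n.factorization 2 = Q.factorization 2) ∧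
      ∑ n ∈ F, (1 : ℚ) / n = (s : ℚ) / ((Q : ℕ) * H * w) := by
  obtain ⟨t, ht, hdvd, hsum⟩ := hRep s hs1 hsS hr
  obtain ⟨F₀, hF₀c, hF₀o, hF₀s⟩ := group_of_rep hH hs1 ht hdvd hsum
  have hwpos : 0 < w := hw.pos
  have hHpos : 0 < H := hH.pos
  have hinj : Function.Injective (fun n : ℕ => n * (Q * w)) := by
    intro a b hab
    exact Nat.eq_of_mul_eq_mul_right (Nat.mul_pos hQ hwpos) hab
  refine ⟨F₀.image (fun n : ℕ => n * (Q * w)), ?_, ?_, ?_⟩
  · exact Finset.card_image_le.trans hF₀c.le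
  · intro m hm
    obtain ⟨n, hn, rfl⟩ := Finset.mem_image.mp hm
    have hnodd := hF₀o n hn
    have hnpos : 0 < n := hnodd.pos
    refine ⟨Nat.mul_pos hnpos (Nat.mul_pos hQ hwpos), ?_⟩
    have h2 : ¬ 2 ∣ n := by
      rw [← Nat.not_even_iff_odd, even_iff_two_dvd] at hnodd
      exact hnodd
    have h3 : ¬ 2 ∣ w := by
      have hw' := hw
      rw [← Nat.not_even_iff_odd, even_iff_two_dvd] at hw'
      exact hw'
    rw [Nat.factorization_mul hnpos.ne' (Nat.mul_pos hQ hwpos).ne',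
      Nat.factorization_mul hQ.ne' hwpos.ne']
    simp only [Finsupp.add_apply]
    rw [Nat.factorization_eq_zero_of_not_dvd h2, Nat.factorization_eq_zero_of_not_dvd h3]
    omega
  · rw [Finset.sum_image (fun a _ b _ h => hinj h)]
    have hQ0 : (Q : ℚ) ≠ 0 := by exact_mod_cast hQ.ne'
    have hw0 : (w : ℚ) ≠ 0 := by exact_mod_cast hwpos.ne'
    have hH0 : (H : ℚ) ≠ 0 := by exact_mod_cast hHpos.ne'
    have key : ∀ n ∈ F₀, (1 : ℚ) / ((n * (Q * w) : ℕ) : ℚ) = (1 / (n : ℚ)) * (1 / (Q * w)) := by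
      intro n hn
      have hn0 : (n : ℚ) ≠ 0 := by exact_mod_cast (hF₀o n hn).pos.ne'
      push_cast
      field_simp
    rw [Finset.sum_congr rfl key, ← Finset.sum_mul, hF₀s]
    field_simp

/-- TASK B3. The digit expansion. (Uses B1, B2.) -/
theorem digits (N₀ S H w : ℕ) (hN₀ : 2 ≤ N₀) (hRep : Rep N₀ S H) (hH : Odd H) (hw : Odd w)
    (g : List ℕ) (hg : ∀ x ∈ g, 2 ∣ x ∧ 0 < x ∧ x * primorial N₀ ≤ S)
    (N : ℕ) (hN : Rough N₀ N) (hN0 : 0 < N) (hNlt : N < g.prod) :
    ∃ F : Finset ℕ, F.card ≤ 13 * g.length ∧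
      (∀ n ∈ F, 0 < n ∧ n.factorization 2 ≤ g.prod.factorization 2) ∧
      ∑ n ∈ F, (1 : ℚ) / n = (N : ℚ) / ((g.prod : ℕ) * H * w) := by
  induction g generalizing N with
  | nil =>
    simp only [List.prod_nil] at hNlt
    omega
  | cons x g' ih =>
    have hx := hg x (by simp)
    obtain ⟨hx2, hx0, hxS⟩ := hx
    have hg' : ∀ y ∈ g', 2 ∣ y ∧ 0 < y ∧ y * primorial N₀ ≤ S :=
      fun y hy => hg y (List.mem_cons_of_mem _ hy)
    have hg'pos : 0 < g'.prod := by
      apply List.prod_pos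
      exact fun y hy => (hg' y hy).2.1
    have hQ : 0 < (x :: g').prod := by
      rw [List.prod_cons]; exact Nat.mul_pos hx0 hg'pos
    by_cases hNS : N ≤ S
    · obtain ⟨F, hF1, hF2, hF3⟩ := digits_group N₀ S H w hRep hH hw N _ hN0 hNS hN hQ
      refine ⟨F, ?_, fun n hn => ⟨(hF2 n hn).1, (hF2 n hn).2.le⟩, hF3⟩
      simp only [List.length_cons]
      omega
    · push Not at hNS
      obtain ⟨s, q, hNe, hs1, hsS, hrs, hq1, hrq⟩ := digit_choice N₀ x N S hN₀ hx2 hx0
        (by rwa [mul_comm] at hxS ⊢) hN hNS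
      have hqlt : q < g'.prod := by
        rw [List.prod_cons] at hNlt
        have h1 : x * q < x * g'.prod := by omega
        exact Nat.lt_of_mul_lt_mul_left h1
      obtain ⟨F', hF'1, hF'2, hF'3⟩ := ih hg' q hrq hq1 hqlt
      obtain ⟨F, hF1, hF2, hF3⟩ := digits_group N₀ S H w hRep hH hw s _ hs1 hsS hrs hQ
      have hval : (x :: g').prod.factorization 2 = x.factorization 2 + g'.prod.factorization 2 := by
        rw [List.prod_cons, Nat.factorization_mul hx0.ne' hg'pos.ne']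
        rfl
      have hx1 : 1 ≤ x.factorization 2 :=
        (Nat.Prime.dvd_iff_one_le_factorization Nat.prime_two hx0.ne').mp hx2
      have hdisj : Disjoint F F' := by
        rw [Finset.disjoint_left]
        intro n hn hn'
        have h1 := (hF2 n hn).2
        have h2 := (hF'2 n hn').2
        omega
      refine ⟨F ∪ F', ?_, ?_, ?_⟩
      · have := Finset.card_union_le F F'
        simp only [List.length_cons]
        omega
      · intro n hn
        rcases Finset.mem_union.mp hn with hn | hn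
        · exact ⟨(hF2 n hn).1, (hF2 n hn).2.le⟩
        · refine ⟨(hF'2 n hn).1, (hF'2 n hn).2.trans ?_⟩
          omega
      · rw [Finset.sum_union hdisj, hF3, hF'3, hNe, List.prod_cons]
        have hHpos : (H : ℚ) ≠ 0 := by exact_mod_cast hH.pos.ne'
        have hwpos : (w : ℚ) ≠ 0 := by exact_mod_cast hw.pos.ne'
        have hx0' : (x : ℚ) ≠ 0 := by exact_mod_cast hx0.ne'
        have hg0' : ((g'.prod : ℕ) : ℚ) ≠ 0 := by exact_mod_cast hg'pos.ne'
        push_cast
        field_simp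

end Crest.Agent.EF
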