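import Crest.Agent.Lib.EF.Defs

namespace Crest.Agent.EF

open Finset

/-- TASK C3. Reduction of a Fourier coefficient to lowest terms. -/
theorem stdAddChar_reduce {s n d : ℕ} [NeZero s] [NeZero n] (hs : s = n * d) (ξ x : ℕ) :
    ZMod.stdAddChar (((d * ξ : ℕ) : ZMod s) * (x : ZMod s)) =
      ZMod.stdAddChar ((ξ : ZMod n) * (x : ZMod n)) := by
  have h1 : (((d * ξ : ℕ) : ZMod s) * (x : ZMod s)) = (((d * ξ * x : ℕ) : ℤ) : ZMod s) := by
    push_cast; ring
  have h2 : ((ξ : ZMod n) * (x : ZMod n)) = (((ξ * x : ℕ) : ℤ) : ZMod n) := by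
    push_cast; ring
  rw [h1, h2, ZMod.stdAddChar_coe, ZMod.stdAddChar_coe]
  congr 1
  have hn : (n : ℂ) ≠ 0 := by exact_mod_cast NeZero.ne n
  have hd : (d : ℂ) ≠ 0 := by
    have : d ≠ 0 := by
      rintro rfl
      exact NeZero.ne s (by simpa using hs)
    exact_mod_cast this
  subst hs
  push_cast
  field_simp

/-- TASK C4. The sum over nonzero frequencies of `n_ξ ^ (-3)`, where `n_ξ = s / gcd (ξ, s)`. -/
theorem sum_reduced_lt (s : ℕ) [NeZero s] :
    ∑ ξ ∈ (Finset.univ : Finset (ZMod s)).erase 0,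
      ((1 : ℝ) / ((s / Nat.gcd ξ.val s : ℕ) : ℝ)) ^ 3 < 1 := by
  classical
  have hs : 0 < s := Nat.pos_of_ne_zero (NeZero.ne s)
  set nn : ZMod s → ℕ := fun ξ => s / Nat.gcd ξ.val s with hnn
  have hmem : ∀ ξ ∈ (Finset.univ : Finset (ZMod s)).erase 0, nn ξ ∈ Finset.Icc 2 s := by
    intro ξ hξ
    have hξ0 : ξ ≠ 0 := (Finset.mem_erase.1 hξ).1
    have hval : ξ.val ≠ 0 := fun h => hξ0 ((ZMod.val_eq_zero ξ).1 h)
    have hlt : ξ.val < s := ZMod.val_lt ξ
    have hg : 0 < Nat.gcd ξ.val s := Nat.gcd_pos_of_pos_right _ hs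
    have hgle : Nat.gcd ξ.val s ≤ ξ.val := Nat.gcd_le_left _ (Nat.pos_of_ne_zero hval)
    have hglt : Nat.gcd ξ.val s < s := lt_of_le_of_lt hgle hlt
    obtain ⟨k, hk⟩ := Nat.gcd_dvd_right ξ.val s
    have hk' : nn ξ = k := Nat.div_eq_of_eq_mul_right hg hk
    have hk1 : 2 ≤ k := by
      by_contra hk'
      have : k = 0 ∨ k = 1 := by omega
      rcases this with rfl | rfl
      · simp at hk; omega
      · simp at hk; omega
    rw [hk']
    refine Finset.mem_Icc.2 ⟨hk1, ?_⟩
    rw [hk]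
    nlinarith
  -- fibres
  have hfib : ∀ n ∈ Finset.Icc 2 s,
      (((Finset.univ : Finset (ZMod s)).erase 0).filter fun ξ => nn ξ = n).card ≤ n := by
    intro n hn
    have hn2 : 2 ≤ n := (Finset.mem_Icc.1 hn).1
    -- the map `ξ ↦ ξ.val / gcd` is injective on the fibre, into `range n`
    refine (Finset.card_le_card_of_injOn (fun ξ => ξ.val / Nat.gcd ξ.val s)
      (t := Finset.range n) ?_ ?_).trans (by simp)
    · intro ξ hξ
      have hξ' := Finset.mem_filter.1 (Finset.mem_coe.1 hξ)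
      have hg : 0 < Nat.gcd ξ.val s := Nat.gcd_pos_of_pos_right _ hs
      have hlt : ξ.val < s := ZMod.val_lt ξ
      have hnξ : nn ξ = n := hξ'.2
      simp only [Finset.coe_range, Set.mem_Iio]
      rw [← hnξ]
      exact Nat.div_lt_div_of_lt_of_dvd (Nat.gcd_dvd_right _ _) hlt
    · intro ξ hξ ζ hζ hEq
      have hξ' := Finset.mem_filter.1 (Finset.mem_coe.1 hξ)
      have hζ' := Finset.mem_filter.1 (Finset.mem_coe.1 hζ)
      have hgξ : 0 < Nat.gcd ξ.val s := Nat.gcd_pos_of_pos_right _ hs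
      have hgζ : 0 < Nat.gcd ζ.val s := Nat.gcd_pos_of_pos_right _ hs
      have hsξ : s = n * Nat.gcd ξ.val s := by
        have := Nat.div_mul_cancel (Nat.gcd_dvd_right ξ.val s)
        have h2 : nn ξ = n := hξ'.2
        rw [← h2]
        exact this.symm
      have hsζ : s = n * Nat.gcd ζ.val s := by
        have := Nat.div_mul_cancel (Nat.gcd_dvd_right ζ.val s)
        have h2 : nn ζ = n := hζ'.2
        rw [← h2]
        exact this.symm
      have hgeq : Nat.gcd ξ.val s = Nat.gcd ζ.val s := by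
        have hn0 : 0 < n := by omega
        have : n * Nat.gcd ξ.val s = n * Nat.gcd ζ.val s := by rw [← hsξ, ← hsζ]
        exact Nat.eq_of_mul_eq_mul_left hn0 this
      have hval : ξ.val = ζ.val := by
        have h1 := Nat.div_mul_cancel (Nat.gcd_dvd_left ξ.val s)
        have h2 := Nat.div_mul_cancel (Nat.gcd_dvd_left ζ.val s)
        simp only at hEq
        rw [← h1, ← h2, hEq, hgeq]
      exact ZMod.val_injective s hval
  calc ∑ ξ ∈ (Finset.univ : Finset (ZMod s)).erase 0, ((1 : ℝ) / (nn ξ : ℝ)) ^ 3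
      = ∑ n ∈ Finset.Icc 2 s, ∑ ξ ∈ ((Finset.univ : Finset (ZMod s)).erase 0).filter
          (fun ξ => nn ξ = n), ((1 : ℝ) / (nn ξ : ℝ)) ^ 3 :=
        (Finset.sum_fiberwise_of_maps_to hmem _).symm
    _ ≤ ∑ n ∈ Finset.Icc 2 s, (1 : ℝ) / ((n : ℝ) * ((n : ℝ) - 1)) := by
        refine Finset.sum_le_sum fun n hn => ?_
        have hn2 : 2 ≤ n := (Finset.mem_Icc.1 hn).1
        have hn2' : (2 : ℝ) ≤ n := by exact_mod_cast hn2
        have h1 : ∑ ξ ∈ ((Finset.univ : Finset (ZMod s)).erase 0).filter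
            (fun ξ => nn ξ = n), ((1 : ℝ) / (nn ξ : ℝ)) ^ 3 =
            ((((Finset.univ : Finset (ZMod s)).erase 0).filter fun ξ => nn ξ = n).card : ℝ) *
              ((1 : ℝ) / (n : ℝ)) ^ 3 := by
          rw [← nsmul_eq_mul, ← Finset.sum_const]
          refine Finset.sum_congr rfl fun ξ hξ => ?_
          rw [(Finset.mem_filter.1 hξ).2]
        rw [h1]
        have h2 : (((((Finset.univ : Finset (ZMod s)).erase 0).filter fun ξ => nn ξ = n).card : ℕ) : ℝ)
            ≤ n := by exact_mod_cast hfib n hn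
        calc _ ≤ (n : ℝ) * ((1 : ℝ) / (n : ℝ)) ^ 3 := by gcongr
          _ = 1 / ((n : ℝ) * (n : ℝ)) := by field_simp
          _ ≤ 1 / ((n : ℝ) * ((n : ℝ) - 1)) := by
              apply one_div_le_one_div_of_le
              · have : (0 : ℝ) < (n : ℝ) - 1 := by linarith
                positivity
              · nlinarith
    _ < 1 := by
        -- telescoping
        have htel : ∀ m : ℕ, 1 ≤ m → ∑ n ∈ Finset.Icc 2 m, (1 : ℝ) / ((n : ℝ) * ((n : ℝ) - 1))
            = 1 - 1 / (m : ℝ) := by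
          intro m hm
          induction m, hm using Nat.le_induction with
          | base => simp
          | succ m hm ih =>
            rw [Finset.sum_Icc_succ_top (by omega), ih]
            have hm' : (1 : ℝ) ≤ m := by exact_mod_cast hm
            have hm0 : (m : ℝ) ≠ 0 := by positivity
            have hm1 : (m : ℝ) + 1 ≠ 0 := by positivity
            push_cast
            have h : (m : ℝ) + 1 - 1 = m := by ring
            rw [h]
            field_simp
            ring
        rw [htel s hs]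
        have : (0 : ℝ) < 1 / (s : ℝ) := by
          have : (0 : ℝ) < s := by exact_mod_cast hs
          positivity
        linarith

end Crest.Agent.EF
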