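import Crest.Agent.Lib.EF.Fourier
import Crest.Agent.Lib.EF.Reduce
import Crest.Agent.Lib.EF.Coeff

namespace Crest.Agent.EF

open Finset

/-- The first thirteen odd primes. -/
def repcore_pi : Fin 13 → ℕ := ![3, 5, 7, 11, 13, 17, 19, 23, 29, 31, 37, 41, 43]

lemma repcore_pi_prime (j : Fin 13) : (repcore_pi j).Prime := by
  fin_cases j <;> norm_num [repcore_pi]

lemma repcore_pi_le (j : Fin 13) : repcore_pi j ≤ 43 := by
  fin_cases j <;> norm_num [repcore_pi]

lemma repcore_pi_ne (j : Fin 13) : repcore_pi j ≠ 2 := by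
  fin_cases j <;> norm_num [repcore_pi]

lemma repcore_pi_inj : Function.Injective repcore_pi := by
  decide

lemma repcore_N0_ge (ℓ : ℕ) (hℓ : 100 ≤ ℓ) : 43 ≤ N0 ℓ := by
  have h : 2 ^ 6 ≤ 2 ^ (ℓ - 3) := Nat.pow_le_pow_right (by norm_num) (by omega)
  unfold N0
  norm_num at h ⊢
  omega

/-- A product of primes of `PP` over a subset divides the total product, and no small prime
divides it. -/
lemma repcore_prime_dvd_prod {ι : Type*} (I : Finset ι) (p : ι → ℕ) (q : ℕ) (hq : q.Prime)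
    (h : q ∣ ∏ i ∈ I, p i) : ∃ i ∈ I, q ∣ p i :=
  (Prime.dvd_finsetProd_iff hq.prime _).1 h

/-- The arithmetic of the reduction of a nonzero frequency. -/
lemma repcore_reduce (s : ℕ) [NeZero s] (ξ : ZMod s) (hξ : ξ ≠ 0) :
    ∃ n d ξ' : ℕ, n = s / Nat.gcd ξ.val s ∧ s = n * d ∧ ξ = ((d * ξ' : ℕ) : ZMod s) ∧
      Nat.Coprime ξ' n ∧ 1 < n := by
  have hs : 0 < s := Nat.pos_of_ne_zero (NeZero.ne s)
  have hg : 0 < Nat.gcd ξ.val s := Nat.gcd_pos_of_pos_right _ hs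
  refine ⟨s / Nat.gcd ξ.val s, Nat.gcd ξ.val s, ξ.val / Nat.gcd ξ.val s, rfl, ?_, ?_, ?_, ?_⟩
  · exact (Nat.div_mul_cancel (Nat.gcd_dvd_right _ _)).symm
  · rw [Nat.mul_div_cancel' (Nat.gcd_dvd_left _ _)]
    exact (ZMod.natCast_zmod_val ξ).symm
  · exact Nat.coprime_div_gcd_div_gcd hg
  · have hval : ξ.val ≠ 0 := by
      intro h
      exact hξ ((ZMod.val_eq_zero ξ).1 h)
    have hlt : ξ.val < s := ZMod.val_lt ξ
    have hgle : Nat.gcd ξ.val s ≤ ξ.val := Nat.gcd_le_left _ (Nat.pos_of_ne_zero hval)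
    have hglt : Nat.gcd ξ.val s < s := lt_of_le_of_lt hgle hlt
    have hdvd : Nat.gcd ξ.val s ∣ s := Nat.gcd_dvd_right _ _
    obtain ⟨k, hk⟩ := hdvd
    have hk1 : 1 < k := by
      by_contra hk'
      have : k = 0 ∨ k = 1 := by omega
      rcases this with rfl | rfl
      · simp at hk; omega
      · simp at hk; omega
    have : s / Nat.gcd ξ.val s = k := Nat.div_eq_of_eq_mul_right hg hk
    omega

theorem repcore_product_bound {U n : ℝ} (hU : 0 ≤ U) (hn : 1 ≤ n) (T : Fin 13 → ℝ)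
    (hT0 : ∀ j, 0 ≤ T j) (hT : ∀ j, T j ^ 4 * n ≤ (U ^ 8)) :
    ∏ j, T j ≤ U ^ 26 * ((1 : ℝ) / n) ^ 3 := by
  have hn0 : 0 < n := by linarith
  have h1 : (∏ j, T j) ^ 4 * n ^ 13 ≤ U ^ 104 := by
    calc (∏ j, T j) ^ 4 * n ^ 13 = ∏ j : Fin 13, (T j ^ 4 * n) := by
          rw [Finset.prod_mul_distrib, Finset.prod_pow]
          simp
      _ ≤ ∏ _j : Fin 13, U ^ 8 := by
          apply Finset.prod_le_prod
          · intro j _
            exact mul_nonneg (pow_nonneg (hT0 j) _) hn0.le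
          · intro j _
            exact hT j
      _ = U ^ 104 := by
          simp [← pow_mul]
  have h2 : ((∏ j, T j) * n ^ 3) ^ 4 ≤ (U ^ 26) ^ 4 := by
    have hn12 : n ^ 12 ≤ n ^ 13 := pow_le_pow_right₀ hn (by norm_num)
    have hprod : 0 ≤ ∏ j, T j := Finset.prod_nonneg fun j _ => hT0 j
    calc ((∏ j, T j) * n ^ 3) ^ 4 = (∏ j, T j) ^ 4 * n ^ 12 := by ring
      _ ≤ (∏ j, T j) ^ 4 * n ^ 13 := by gcongr
      _ ≤ U ^ 104 := h1
      _ = (U ^ 26) ^ 4 := by ring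
  have h3 : (∏ j, T j) * n ^ 3 ≤ U ^ 26 := by
    refine le_of_pow_le_pow_left₀ (n := 4) (by norm_num) (pow_nonneg hU _) h2
  have hn3 : 0 < n ^ 3 := by positivity
  have : ∏ j, T j = ((∏ j, T j) * n ^ 3) * (1 / n) ^ 3 := by
    field_simp
  rw [this]
  gcongr

theorem rep_of_designed (ℓ : ℕ) (hℓ : 100 ≤ ℓ) (p : Fin (Om ℓ) → ℕ) (hp : ∀ i, p i ∈ PP ℓ)
    (hd : Designed ℓ p) (P₀ : ℕ) (hP₀ : ∀ q : ℕ, q.Prime → q ≠ 2 → q ≤ N0 ℓ → q ∣ P₀)
    (hP₀0 : 0 < P₀) :
    Rep (N0 ℓ) (2 ^ KK ℓ) (P₀ * (∏ i, p i) ^ 2) := by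
  classical
  intro s hs1 hs hr
  have : NeZero s := ⟨by omega⟩
  have hN0 := repcore_N0_ge ℓ hℓ
  have hpP : ∀ i, (p i).Prime ∧ N0 ℓ < p i := by
    intro i
    have := hp i
    simp only [PP, Finset.mem_filter, Finset.mem_Ioc] at this
    exact ⟨this.2, this.1.1⟩
  set A : Finset (Fin (Om ℓ)) := Finset.univ.filter (fun i => ¬ p i ∣ s) with hA
  let u : ↥A.powerset → ℕ := fun I => ∏ i ∈ I.1, p i
  let v : Fin 13 → ↥A.powerset × ↥A.powerset → ZMod s :=
    fun j x => ((repcore_pi j * u x.1 * u x.2 : ℕ) : ZMod s)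
  have hcard : (Fintype.card (↥A.powerset × ↥A.powerset) : ℝ) ^ 13 = ((2 : ℝ) ^ A.card) ^ 26 := by
    rw [Fintype.card_prod, Fintype.card_coe, Finset.card_powerset]
    push_cast
    ring
  have hterm : ∀ ξ ∈ (Finset.univ : Finset (ZMod s)).erase 0,
      ∏ j, ‖∑ x, ZMod.stdAddChar (ξ * v j x)‖ ≤
        ((2 : ℝ) ^ A.card) ^ 26 * ((1 : ℝ) / ((s / Nat.gcd ξ.val s : ℕ) : ℝ)) ^ 3 := by
    intro ξ hξ
    have hξ0 : ξ ≠ 0 := (Finset.mem_erase.1 hξ).1
    obtain ⟨n, d, ξ', hn, hsnd, hξd, hcop, hn1⟩ := repcore_reduce s ξ hξ0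
    rw [← hn]
    have : NeZero n := ⟨by omega⟩
    have hns : n ∣ s := ⟨d, hsnd⟩
    have hrn : Rough (N0 ℓ) n := fun q hq hqn => hr q hq (hqn.trans hns)
    apply repcore_product_bound (by positivity) (by exact_mod_cast hn1.le)
    · intro j; exact norm_nonneg _
    · intro j
      have hπcop : Nat.Coprime (repcore_pi j) n := by
        rw [Nat.Prime.coprime_iff_not_dvd (repcore_pi_prime j)]
        intro hdvd
        have := hrn _ (repcore_pi_prime j) hdvd
        have := repcore_pi_le j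
        omega
      have hc : IsUnit ((ξ' : ZMod n) * (repcore_pi j : ZMod n)) := by
        apply IsUnit.mul
        · exact (ZMod.isUnit_iff_coprime _ _).2 hcop
        · exact (ZMod.isUnit_iff_coprime _ _).2 hπcop
      have hb := coeff_bound ℓ hℓ p hp hd s hs1 hs hr hns hn1 _ hc
      rw [← hA] at hb
      have heq : ∑ x, ZMod.stdAddChar (ξ * v j x) =
          ∑ I : ↥A.powerset, ∑ K : ↥A.powerset,
            ZMod.stdAddChar (((ξ' : ZMod n) * (repcore_pi j : ZMod n)) *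
              (∏ i ∈ I.1, (p i : ZMod n)) * (∏ i ∈ K.1, (p i : ZMod n))) := by
        rw [Fintype.sum_prod_type]
        refine Finset.sum_congr rfl fun I _ => Finset.sum_congr rfl fun K _ => ?_
        rw [hξd]
        simp only [v]
        rw [stdAddChar_reduce hsnd ξ' (repcore_pi j * u I * u K)]
        congr 1
        simp only [u]
        push_cast
        ring
      rw [heq]
      exact hb
  have hlt : ∑ ξ ∈ (Finset.univ : Finset (ZMod s)).erase 0,
      ∏ j, ‖∑ x, ZMod.stdAddChar (ξ * v j x)‖ <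
        (Fintype.card (↥A.powerset × ↥A.powerset) : ℝ) ^ 13 := by
    rw [hcard]
    calc _ ≤ ∑ ξ ∈ (Finset.univ : Finset (ZMod s)).erase 0,
          ((2 : ℝ) ^ A.card) ^ 26 * ((1 : ℝ) / ((s / Nat.gcd ξ.val s : ℕ) : ℝ)) ^ 3 :=
          Finset.sum_le_sum hterm
      _ = ((2 : ℝ) ^ A.card) ^ 26 * ∑ ξ ∈ (Finset.univ : Finset (ZMod s)).erase 0,
          ((1 : ℝ) / ((s / Nat.gcd ξ.val s : ℕ) : ℝ)) ^ 3 := by
          rw [Finset.mul_sum]
      _ < ((2 : ℝ) ^ A.card) ^ 26 * 1 := by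
          apply mul_lt_mul_of_pos_left (sum_reduced_lt s)
          positivity
      _ = _ := mul_one _
  obtain ⟨x, hx⟩ := exists_zero_sum v hlt
  refine ⟨fun j => repcore_pi j * u (x j).1 * u (x j).2, ?_, ?_, ?_⟩
  · -- injectivity
    intro j j' hjj
    simp only at hjj
    have hdvd : repcore_pi j ∣ repcore_pi j' * u (x j').1 * u (x j').2 :=
      ⟨u (x j).1 * u (x j).2, by rw [← hjj]; ring⟩
    have hbig : ∀ (I : ↥A.powerset), ¬ repcore_pi j ∣ u I := by
      intro I hI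
      obtain ⟨i, -, hi⟩ := repcore_prime_dvd_prod I.1 p _ (repcore_pi_prime j) hI
      have hi' := (Nat.prime_dvd_prime_iff_eq (repcore_pi_prime j) (hpP i).1).1 hi
      have := (hpP i).2
      have := repcore_pi_le j
      omega
    have h1 := (repcore_pi_prime j).dvd_mul.1 hdvd
    rcases h1 with h1 | h1
    · rcases (repcore_pi_prime j).dvd_mul.1 h1 with h2 | h2
      · exact repcore_pi_inj ((Nat.prime_dvd_prime_iff_eq (repcore_pi_prime j)
          (repcore_pi_prime j')).1 h2)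
      · exact absurd h2 (hbig _)
    · exact absurd h1 (hbig _)
  · -- divisibility
    intro j
    have hsub : ∀ I : ↥A.powerset, u I ∣ ∏ i, p i := fun I =>
      Finset.prod_dvd_prod_of_subset _ _ _ (Finset.subset_univ _)
    have h1 : repcore_pi j ∣ P₀ := hP₀ _ (repcore_pi_prime j) (repcore_pi_ne j)
      (le_trans (repcore_pi_le j) hN0)
    calc repcore_pi j * u (x j).1 * u (x j).2 ∣ P₀ * (∏ i, p i) * (∏ i, p i) :=
          mul_dvd_mul (mul_dvd_mul h1 (hsub _)) (hsub _)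
      _ = P₀ * (∏ i, p i) ^ 2 := by ring
  · -- the sum
    rw [← ZMod.natCast_eq_zero_iff]
    rw [Nat.cast_sum]
    exact hx

end Crest.Agent.EF
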