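import Crest.Agent.Lib.EF.Designed
import Crest.Agent.Lib.EF.RepCore

namespace Crest.Agent.EF

open Finset

theorem exists_H (ℓ : ℕ) (hℓ : 100 ≤ ℓ) :
    ∃ H : ℕ, Odd H ∧ (∀ q : ℕ, q.Prime → q ≠ 2 → q ≤ N0 ℓ → q ∣ H) ∧
      H ≤ 2 ^ (1024 * ℓ * KK ℓ + KK ℓ) ∧ Rep (N0 ℓ) (2 ^ KK ℓ) H := by
  classical
  obtain ⟨p, hp, hd⟩ := exists_designed ℓ hℓ
  have hN0 : 2 ≤ N0 ℓ := by
    have h : 2 ^ 1 ≤ 2 ^ (ℓ - 3) := Nat.pow_le_pow_right (by norm_num) (by omega)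
    simpa [N0] using h
  have hpP : ∀ i, (p i).Prime ∧ N0 ℓ < p i ∧ p i ≤ yy ℓ := by
    intro i
    have := hp i
    simp only [PP, Finset.mem_filter, Finset.mem_Ioc] at this
    exact ⟨this.2, this.1.1, this.1.2⟩
  -- the odd primorial
  set Q : Finset ℕ := (Finset.range (N0 ℓ + 1)).filter (fun q => q.Prime ∧ q ≠ 2) with hQ
  set P₀ : ℕ := ∏ q ∈ Q, q with hP₀
  have hP₀pos : 0 < P₀ := by
    apply Finset.prod_pos
    intro q hq
    exact (Finset.mem_filter.1 hq).2.1.pos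
  have hP₀dvd : ∀ q : ℕ, q.Prime → q ≠ 2 → q ≤ N0 ℓ → q ∣ P₀ := by
    intro q hq h2 hle
    apply Finset.dvd_prod_of_mem
    simp only [hQ, Finset.mem_filter, Finset.mem_range]
    exact ⟨by omega, hq, h2⟩
  have hP₀le : P₀ ≤ 2 ^ KK ℓ := by
    have hsub : Q ⊆ (Finset.range (N0 ℓ + 1)).filter Nat.Prime := by
      intro q hq
      simp only [hQ, Finset.mem_filter, Finset.mem_range] at hq ⊢
      exact ⟨hq.1, hq.2.1⟩
    have h1 : P₀ ≤ primorial (N0 ℓ) := by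
      unfold primorial
      exact Finset.prod_le_prod_of_subset_of_one_le' hsub (fun q hq _ => by
        exact (Finset.mem_filter.1 hq).2.one_le)
    have h2 : primorial (N0 ℓ) ≤ 4 ^ N0 ℓ := primorial_le_four_pow _
    have h3 : 4 ^ N0 ℓ ≤ 2 ^ KK ℓ := by
      have : (4 : ℕ) ^ N0 ℓ = 2 ^ (2 * N0 ℓ) := by
        rw [pow_mul]; norm_num
      rw [this]
      apply Nat.pow_le_pow_right (by norm_num)
      have h8 : KK ℓ = 8 * N0 ℓ := by
        unfold KK N0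
        have : ℓ = (ℓ - 3) + 3 := by omega
        conv_lhs => rw [this]
        rw [pow_add]; ring
      omega
    omega
  have hP₀odd : Odd P₀ := by
    refine Finset.prod_induction _ Odd (fun _ _ => Odd.mul) odd_one ?_
    intro q hq
    obtain ⟨-, hq1, hq2⟩ := Finset.mem_filter.1 hq
    exact hq1.odd_of_ne_two hq2
  have hprododd : Odd (∏ i, p i) := by
    refine Finset.prod_induction _ Odd (fun _ _ => Odd.mul) odd_one ?_
    intro i _
    apply (hpP i).1.odd_of_ne_two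
    have := (hpP i).2.1
    omega
  refine ⟨P₀ * (∏ i, p i) ^ 2, hP₀odd.mul (hprododd.pow), ?_, ?_, ?_⟩
  · intro q hq h2 hle
    exact Dvd.dvd.mul_right (hP₀dvd q hq h2 hle) _
  · have hprod : ∏ i, p i ≤ (2 ^ (16 * ℓ)) ^ (32 * KK ℓ) := by
      calc ∏ i, p i ≤ ∏ _i : Fin (Om ℓ), 2 ^ (16 * ℓ) :=
            Finset.prod_le_prod' (fun i _ => (hpP i).2.2)
        _ = (2 ^ (16 * ℓ)) ^ (32 * KK ℓ) := by
            rw [Finset.prod_const, Finset.card_univ, Fintype.card_fin, Om]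
    calc P₀ * (∏ i, p i) ^ 2 ≤ 2 ^ KK ℓ * ((2 ^ (16 * ℓ)) ^ (32 * KK ℓ)) ^ 2 := by
          gcongr
      _ = 2 ^ (1024 * ℓ * KK ℓ + KK ℓ) := by
          rw [← pow_mul, ← pow_mul, ← pow_add]
          congr 1
          ring
  · exact rep_of_designed ℓ hℓ p hp hd P₀ hP₀dvd hP₀pos

end Crest.Agent.EF
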