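import Crest.Agent.Lib.EF.Defs

namespace Crest.Agent.EF

open Finset

lemma fourier_map_sum {A R ι : Type*} [AddCommMonoid A] [CommMonoid R] (ψ : AddChar A R)
    (t : Finset ι) (x : ι → A) : ψ (∑ j ∈ t, x j) = ∏ j ∈ t, ψ (x j) := by
  classical
  induction t using Finset.induction_on with
  | empty => simp
  | insert a t ha ih => rw [Finset.sum_insert ha, Finset.prod_insert ha, AddChar.map_add_eq_mul, ih]

/-- TASK C1. Fourier detection of a zero sum. -/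
theorem exists_zero_sum {s J : ℕ} [NeZero s] {ι : Type*} [Fintype ι]
    (v : Fin J → ι → ZMod s)
    (h : ∑ ξ ∈ (Finset.univ : Finset (ZMod s)).erase 0,
        ∏ j, ‖∑ i, ZMod.stdAddChar (ξ * v j i)‖ < (Fintype.card ι : ℝ) ^ J) :
    ∃ i : Fin J → ι, ∑ j, v j (i j) = 0 := by
  classical
  by_contra hno
  push Not at hno
  have horth : ∀ x : ZMod s, x ≠ 0 → ∑ ξ : ZMod s, (ZMod.stdAddChar (ξ * x) : ℂ) = 0 := by
    intro x hx
    rw [AddChar.sum_mulShift x (ZMod.isPrimitive_stdAddChar s), if_neg hx]; simp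
  have hzero : ∑ i : Fin J → ι, ∑ ξ : ZMod s, (ZMod.stdAddChar (ξ * ∑ j, v j (i j)) : ℂ) = 0 := by
    apply Finset.sum_eq_zero
    intro i _
    exact horth _ (hno i)
  have hexpand : ∀ ξ : ZMod s, ∑ i : Fin J → ι, (ZMod.stdAddChar (ξ * ∑ j, v j (i j)) : ℂ) =
      ∏ j, ∑ i, (ZMod.stdAddChar (ξ * v j i) : ℂ) := by
    intro ξ
    rw [Finset.prod_univ_sum, Fintype.piFinset_univ]
    refine Finset.sum_congr rfl fun i _ => ?_
    rw [Finset.mul_sum, fourier_map_sum]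
  rw [Finset.sum_comm] at hzero
  simp_rw [hexpand] at hzero
  rw [← Finset.add_sum_erase _ _ (Finset.mem_univ (0 : ZMod s))] at hzero
  have h0 : (∏ j : Fin J, ∑ i, (ZMod.stdAddChar ((0 : ZMod s) * v j i) : ℂ)) =
      (Fintype.card ι : ℂ) ^ J := by
    simp
  rw [h0] at hzero
  have h1 : (Fintype.card ι : ℂ) ^ J = - ∑ ξ ∈ (Finset.univ : Finset (ZMod s)).erase 0,
      ∏ j, ∑ i, (ZMod.stdAddChar (ξ * v j i) : ℂ) := eq_neg_of_add_eq_zero_left hzero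
  have h2 : (Fintype.card ι : ℝ) ^ J ≤ ∑ ξ ∈ (Finset.univ : Finset (ZMod s)).erase 0,
      ∏ j, ‖∑ i, (ZMod.stdAddChar (ξ * v j i) : ℂ)‖ := by
    calc (Fintype.card ι : ℝ) ^ J = ‖(Fintype.card ι : ℂ) ^ J‖ := by simp
      _ = ‖∑ ξ ∈ (Finset.univ : Finset (ZMod s)).erase 0,
            ∏ j, ∑ i, (ZMod.stdAddChar (ξ * v j i) : ℂ)‖ := by rw [h1, norm_neg]
      _ ≤ ∑ ξ ∈ (Finset.univ : Finset (ZMod s)).erase 0,
            ‖∏ j, ∑ i, (ZMod.stdAddChar (ξ * v j i) : ℂ)‖ := norm_sum_le _ _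
      _ = _ := by simp_rw [norm_prod]
  exact absurd h (not_lt.2 h2)

end Crest.Agent.EF
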