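import Crest.Agent.Lib.EF.Stage0
import Crest.Agent.Lib.EF.Digits
import Crest.Agent.Lib.EF.ExistsH

namespace Crest.Agent.EF

open Finset

lemma mc_prod_map_two (l : List ℕ) : (l.map (fun x => 2 * x)).prod = 2 ^ l.length * l.prod := by
  induction l with
  | nil => simp
  | cons a l ih =>
    simp only [List.map_cons, List.prod_cons, List.length_cons, ih]
    ring

theorem mc_tail (N₀ S H κ : ℕ) (hN₀ : 2 ≤ N₀) (hRep : Rep N₀ S H) (hH : Odd H)
    (hHp : ∀ q : ℕ, q.Prime → q ≠ 2 → q ≤ N₀ → q ∣ H) (hκ : κ.Prime) (hκ2 : N₀ < κ)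
    (g : List ℕ) (hg : ∀ x ∈ g, 2 ∣ x ∧ 0 < x ∧ x * primorial N₀ ≤ S)
    (r' : ℚ) (hr' : 0 < r') (hlt : r' * ((H : ℚ) * ((2 * κ - 1 : ℕ) : ℚ)) < 1)
    (A₂ : ℕ) (hA₂ : 2 ∣ A₂) (hA₂eq : (A₂ : ℚ) = (g.prod : ℕ) * r') :
    ∃ T : Finset ℕ, (∀ n ∈ T, 0 < n) ∧ T.card ≤ 2 + 13 * g.length ∧
      ∑ n ∈ T, (1 : ℚ) / n = r' := by
  classical
  set w := 2 * κ - 1 with hw
  have hκ3 : 3 ≤ κ := by omega
  have hw3 : 3 ≤ w := by omega
  have hwodd : Odd w := ⟨κ - 1, by omega⟩
  have hwk : w + 1 = 2 * κ := by omega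
  set G := g.prod with hG
  have hGpos : 0 < G := List.prod_pos (fun x hx => (hg x hx).2.1)
  have hHpos : 0 < H := hH.pos
  have hGq : (0 : ℚ) < G := by exact_mod_cast hGpos
  have hHq : (0 : ℚ) < H := by exact_mod_cast hHpos
  have hwq : (0 : ℚ) < w := by
    have : 0 < w := by omega
    exact_mod_cast this
  have hA₂pos : 0 < A₂ := by
    have : (0 : ℚ) < A₂ := by rw [hA₂eq]; positivity
    exact_mod_cast this
  have hA₂ge : 2 ≤ A₂ := Nat.le_of_dvd hA₂pos hA₂
  have hbig : κ < A₂ * H * w := by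
    have h1 : 2 * 1 * w ≤ A₂ * H * w := by gcongr; omega
    omega
  obtain ⟨N₁, hN₁⟩ : ∃ N₁, A₂ * H * w = N₁ + κ := ⟨A₂ * H * w - κ, by omega⟩
  have hN₁pos : 0 < N₁ := by omega
  have hN₁lt : N₁ < G := by
    have h1 : ((A₂ * H * w : ℕ) : ℚ) < G := by
      push_cast
      rw [hA₂eq]
      have : (G : ℚ) * r' * H * w = G * (r' * (H * w)) := by ring
      rw [this]
      nlinarith
    have h2 : A₂ * H * w < G := by exact_mod_cast h1
    omega
  have hrough : Rough N₀ N₁ := by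
    intro q hq hqN
    by_contra hle
    push Not at hle
    have hqd : q ∣ A₂ * H * w := by
      by_cases h2 : q = 2
      · subst h2
        exact Dvd.dvd.mul_right (Dvd.dvd.mul_right hA₂ _) _
      · exact Dvd.dvd.mul_right (Dvd.dvd.mul_left (hHp q hq h2 hle) _) _
    rw [hN₁] at hqd
    have h3 : q ∣ κ := (Nat.dvd_add_right hqN).1 hqd
    have h4 := (Nat.prime_dvd_prime_iff_eq hq hκ).1 h3
    omega
  obtain ⟨F₂, hcard, hprop, hsum⟩ :=
    digits N₀ S H w hN₀ hRep hH hwodd g hg N₁ hrough hN₁pos hN₁lt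
  rw [← hG] at hprop hsum
  -- valuations of the special terms
  have hH2 : H.factorization 2 = 0 :=
    Nat.factorization_eq_zero_of_not_dvd hH.not_two_dvd_nat
  have hw2 : w.factorization 2 = 0 :=
    Nat.factorization_eq_zero_of_not_dvd hwodd.not_two_dvd_nat
  have hw0 : w ≠ 0 := by omega
  have hG0 : G ≠ 0 := by omega
  have hH0 : H ≠ 0 := by omega
  have hv1 : (2 * G * H).factorization 2 = G.factorization 2 + 1 := by
    rw [Nat.factorization_mul (by positivity) hH0, Nat.factorization_mul (by norm_num) hG0]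
    simp [hH2, Nat.Prime.factorization_self Nat.prime_two]
    omega
  have hv2 : (2 * G * H * w).factorization 2 = G.factorization 2 + 1 := by
    rw [Nat.factorization_mul (by positivity) hw0, Finsupp.add_apply, hv1, hw2]
  have hn1F : 2 * G * H ∉ F₂ := by
    intro hin
    have := (hprop _ hin).2
    omega
  have hn2F : 2 * G * H * w ∉ F₂ := by
    intro hin
    have := (hprop _ hin).2
    omega
  have hne : 2 * G * H ≠ 2 * G * H * w := by
    intro h
    have h0 : 0 < 2 * G * H := by positivity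
    have : 2 * G * H * 1 = 2 * G * H * w := by omega
    have := Nat.eq_of_mul_eq_mul_left h0 this
    omega
  refine ⟨insert (2 * G * H) (insert (2 * G * H * w) F₂), ?_, ?_, ?_⟩
  · intro n hn
    simp only [Finset.mem_insert] at hn
    rcases hn with rfl | rfl | hn
    · positivity
    · have : 0 < w := by omega
      positivity
    · exact (hprop n hn).1
  · have h1 := Finset.card_insert_le (2 * G * H) (insert (2 * G * H * w) F₂)
    have h2 := Finset.card_insert_le (2 * G * H * w) F₂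
    omega
  · rw [Finset.sum_insert, Finset.sum_insert hn2F, hsum]
    · have hA : (A₂ : ℚ) * H * w = N₁ + κ := by exact_mod_cast hN₁
      have hwk' : (w : ℚ) + 1 = 2 * κ := by exact_mod_cast hwk
      have hr : r' = A₂ / G := by
        rw [hA₂eq]
        field_simp
      rw [hr]
      push_cast
      field_simp
      -- goal: an identity following from `hA`, `hwk'`
      have hκq : (κ : ℚ) = ((w : ℚ) + 1) / 2 := by rw [hwk']; ring
      have hN : (N₁ : ℚ) = A₂ * H * w - κ := by rw [hA]; ring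
      rw [hN, hκq]
      ring
    · intro hin
      rcases Finset.mem_insert.1 hin with h | h
      · exact hne h
      · exact hn1F h

theorem mc_merge (E T : Finset ℕ) (r r' : ℚ) (hr0 : 0 < r') (hr1 : r' < 1)
    (hE : ∀ e ∈ E, 2 ≤ e ∧ (e : ℚ) * r' < 1) (hT : ∀ n ∈ T, 0 < n)
    (hsumT : ∑ n ∈ T, (1 : ℚ) / n = r') (hr : r = r' + ∑ e ∈ E, (1 : ℚ) / e) :
    ∃ S : Finset ℕ, (∀ n ∈ S, 2 ≤ n) ∧ S.card ≤ E.card + T.card ∧
      ∑ n ∈ S, (1 : ℚ) / n = r := by
  classical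
  have hle : ∀ n ∈ T, (1 : ℚ) ≤ n * r' := by
    intro n hn
    have hn0 : (0 : ℚ) < n := by exact_mod_cast hT n hn
    have h1 : (1 : ℚ) / n ≤ ∑ m ∈ T, (1 : ℚ) / m :=
      Finset.single_le_sum (f := fun m : ℕ => (1 : ℚ) / m) (fun m _ => by positivity) hn
    rw [hsumT] at h1
    rw [div_le_iff₀ hn0] at h1
    linarith
  have hdisj : Disjoint E T := by
    rw [Finset.disjoint_left]
    intro x hxE hxT
    have := (hE x hxE).2
    have := hle x hxT
    linarith
  refine ⟨E ∪ T, ?_, Finset.card_union_le _ _, ?_⟩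
  · intro n hn
    rcases Finset.mem_union.1 hn with h | h
    · exact (hE n h).1
    · by_contra hlt
      have h0 := hT n h
      have h1 : n = 1 := by omega
      have h2 := hle n h
      rw [h1] at h2
      norm_num at h2
      linarith
  · rw [Finset.sum_union hdisj, hsumT, hr]
    ring

theorem main_count (ℓ : ℕ) (hℓ : 100 ≤ ℓ) (a b : ℕ) (hb1 : 2 ^ (ℓ - 3) ≤ Nat.log 2 b)
    (hb2 : 4 * (Nat.log 2 b + 1) ≤ 2 ^ ℓ) (ha : 1 ≤ a) (hab : a < b) :
    ∃ S : Finset ℕ, (∀ n ∈ S, 2 ≤ n) ∧ S.card ≤ 400000 * ℓ ∧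
      ∑ n ∈ S, (1 : ℚ) / (n : ℚ) = (a : ℚ) / (b : ℚ) := by
  classical
  obtain ⟨H, hHodd, hHp, hHle, hRep⟩ := exists_H ℓ hℓ
  set K := KK ℓ with hK
  set N := N0 ℓ with hNdef
  have hK8 : K = 8 * N := by
    simp only [hK, hNdef, KK, N0]
    have : ℓ = (ℓ - 3) + 3 := by omega
    conv_lhs => rw [this]
    rw [pow_add]; ring
  have hKpow : K = 2 ^ ℓ := rfl
  have hNpow : N = 2 ^ (ℓ - 3) := rfl
  have hN2 : 2 ≤ N := by
    have h : 2 ^ 1 ≤ 2 ^ (ℓ - 3) := Nat.pow_le_pow_right (by norm_num) (by omega)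
    rw [hNpow]
    simpa using h
  have hℓK : ℓ ≤ K := by
    rw [hKpow]
    exact Nat.lt_two_pow_self.le
  set σ := Nat.log 2 b with hσ
  have hb2' : 2 ≤ b := by omega
  have hNσ : N ≤ σ := hb1
  have hσK : 4 * (σ + 1) ≤ 8 * N := by rw [← hK8]; exact hb2
  have hbσ : 2 ^ σ ≤ b := Nat.pow_log_le_self 2 (by omega)
  have hbσ' : b < 2 ^ (σ + 1) := Nat.lt_pow_succ_log_self (by norm_num) b
  obtain ⟨κ, hκ, hκ1, hκ2⟩ := Nat.exists_prime_lt_and_le_two_mul N (by omega)
  set w := 2 * κ - 1 with hw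
  have hwle : w ≤ K := by omega
  have hwpos : 0 < w := by omega
  set M := H * w with hM
  have hHpos : 0 < H := hHodd.pos
  have hMpos : 1 ≤ M := Nat.mul_pos hHpos hwpos
  have hMle : M ≤ 2 ^ (1026 * ℓ * K) := by
    have hwK : w ≤ 2 ^ ℓ := by rw [← hKpow]; exact hwle
    calc M = H * w := rfl
      _ ≤ 2 ^ (1024 * ℓ * K + K) * 2 ^ ℓ := Nat.mul_le_mul hHle hwK
      _ = 2 ^ (1024 * ℓ * K + K + ℓ) := by rw [← pow_add]
      _ ≤ 2 ^ (1026 * ℓ * K) := by
          apply Nat.pow_le_pow_right (by norm_num)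
          have h1 : K ≤ ℓ * K := Nat.le_mul_of_pos_left _ (by omega)
          have h2 : ℓ ≤ ℓ * K := Nat.le_mul_of_pos_right _ (by omega)
          nlinarith
  have hJ : b ≤ 2 ^ 2 ^ ℓ := by
    have : σ + 1 ≤ 2 ^ ℓ := by rw [← hKpow]; omega
    exact hbσ'.le.trans (Nat.pow_le_pow_right (by norm_num) this)
  have hT : M ≤ b ^ (8208 * ℓ) := by
    calc M ≤ 2 ^ (1026 * ℓ * K) := hMle
      _ = (2 ^ N) ^ (8208 * ℓ) := by
          rw [← pow_mul]
          congr 1
          rw [hK8]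
          ring
      _ ≤ b ^ (8208 * ℓ) := by
          apply Nat.pow_le_pow_left
          exact (Nat.pow_le_pow_right (by norm_num) hNσ).trans hbσ
  have hb0q : (0 : ℚ) < b := by
    have : 0 < b := by omega
    exact_mod_cast this
  have hr0 : (0 : ℚ) < (a : ℚ) / b := by
    have : (0 : ℚ) < a := by exact_mod_cast ha
    positivity
  have hr1 : (a : ℚ) / b < 1 := by
    rw [div_lt_one hb0q]
    exact_mod_cast hab
  obtain ⟨E, F, c, r', hr'0, hr'M, hrsum, hE, hF, hEc, hFl, hc, hden⟩ :=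
    stage0 b M ℓ (8208 * ℓ) hb2' hMpos hJ hT _ hr0 hr1
  rcases hr'0.eq_or_lt with hzero | hpos
  · -- the remainder vanishes
    refine ⟨E, fun n hn => (hE n hn).1, by omega, ?_⟩
    rw [hrsum, ← hzero, zero_add]
  -- the pieces
  set t := 8208 * ℓ with ht
  set g₀ : List ℕ := b :: (F ++ List.replicate t (2 ^ σ)) with hg₀
  set g : List ℕ := g₀.map (fun x => 2 * x) with hg
  have hglen : g.length = 1 + F.length + t := by
    simp [hg, hg₀]
    omega
  have hgprod : g.prod = 2 ^ (1 + F.length + t) * (b * F.prod * 2 ^ (σ * t)) := by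
    rw [hg, mc_prod_map_two, hg₀]
    simp only [List.length_cons, List.length_append, List.length_replicate, List.prod_cons,
      List.prod_append, List.prod_replicate]
    rw [← pow_mul]
    have : (F.length + t + 1) = 1 + F.length + t := by omega
    rw [this]
    ring
  have hprim : primorial N ≤ 2 ^ (2 * N) := by
    have := primorial_le_four_pow N
    have h4 : (4 : ℕ) ^ N = 2 ^ (2 * N) := by rw [pow_mul]; norm_num
    omega
  have hgood : ∀ x ∈ g, 2 ∣ x ∧ 0 < x ∧ x * primorial N ≤ 2 ^ K := by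
    intro x hx
    obtain ⟨y, hy, rfl⟩ := List.mem_map.1 hx
    have hyb : 1 ≤ y ∧ y ≤ 2 * b := by
      simp only [hg₀, List.mem_cons, List.mem_append, List.mem_replicate] at hy
      rcases hy with rfl | hy | ⟨-, rfl⟩
      · omega
      · have := hF y hy
        omega
      · exact ⟨Nat.one_le_two_pow, by omega⟩
    refine ⟨Dvd.intro _ rfl, by omega, ?_⟩
    calc 2 * y * primorial N ≤ (2 * (2 * 2 ^ (σ + 1))) * 2 ^ (2 * N) := by
          apply Nat.mul_le_mul _ hprim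
          omega
      _ = 2 ^ (σ + 3 + 2 * N) := by
          rw [pow_add, pow_add]
          ring
      _ ≤ 2 ^ K := by
          apply Nat.pow_le_pow_right (by norm_num)
          omega
  -- integrality
  obtain ⟨z, hz⟩ := hden b ⟨(2 : ℤ) ^ c * a, by
    push_cast
    field_simp⟩
  have hcle : c ≤ σ * t := by
    have h1 : 2 ^ c ≤ 2 ^ (1026 * ℓ * K) := hc.trans hMle
    have h2 : c ≤ 1026 * ℓ * K := (Nat.pow_le_pow_iff_right (by norm_num)).1 h1
    have h3 : 1026 * ℓ * K = N * t := by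
      rw [hK8, ht]; ring
    have h4 : N * t ≤ σ * t := Nat.mul_le_mul_right _ hNσ
    omega
  have hbFc : (0 : ℚ) < (b : ℚ) * 2 ^ c * (F.prod : ℕ) := by
    have hFpos : 0 < F.prod := List.prod_pos (fun x hx => by have := hF x hx; omega)
    have : (0 : ℚ) < (F.prod : ℕ) := by exact_mod_cast hFpos
    positivity
  have hzpos : 0 < z := by
    have : (0 : ℚ) < (z : ℚ) := by
      rw [← hz]
      positivity
    exact_mod_cast this
  obtain ⟨z', rfl⟩ : ∃ z' : ℕ, z = (z' : ℤ) := ⟨z.toNat, (Int.toNat_of_nonneg hzpos.le).symm⟩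
  have hA₂eq : ((2 ^ (1 + F.length + t + (σ * t - c)) * z' : ℕ) : ℚ) = (g.prod : ℕ) * r' := by
    rw [hgprod]
    push_cast at hz ⊢
    have hpow : (2 : ℚ) ^ (σ * t) = 2 ^ (σ * t - c) * 2 ^ c := by
      rw [← pow_add]
      congr 1
      omega
    rw [← hz, pow_add, hpow]
    ring
  have hA₂2 : 2 ∣ 2 ^ (1 + F.length + t + (σ * t - c)) * z' := by
    apply Dvd.dvd.mul_right
    apply dvd_pow_self
    omega
  have hlt : r' * ((H : ℚ) * ((2 * κ - 1 : ℕ) : ℚ)) < 1 := by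
    have : ((M : ℕ) : ℚ) = (H : ℚ) * ((2 * κ - 1 : ℕ) : ℚ) := by
      rw [hM]
      push_cast
      rfl
    rw [← this]
    exact hr'M
  obtain ⟨T, hT0, hTc, hTs⟩ := mc_tail N (2 ^ K) H κ hN2 hRep hHodd hHp hκ hκ1 g hgood r' hpos hlt
    _ hA₂2 hA₂eq
  have hr'1 : r' < 1 := by
    have h1 : (1 : ℚ) ≤ M := by exact_mod_cast hMpos
    nlinarith
  obtain ⟨S, hS2, hSc, hSs⟩ := mc_merge E T _ r' hpos hr'1 hE hT0 hTs hrsum
  refine ⟨S, hS2, ?_, hSs⟩
  rw [hglen] at hTc
  have hbound : 400000 * ℓ ≥ (ℓ + 8208 * ℓ + 1) + (2 + 13 * (1 + (ℓ + 8208 * ℓ + 1) + 8208 * ℓ)) := by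
    omega
  have : E.card + T.card ≤ (ℓ + 8208 * ℓ + 1) + (2 + 13 * (1 + (ℓ + 8208 * ℓ + 1) + 8208 * ℓ)) := by
    have h13 : 13 * (1 + F.length + t) ≤ 13 * (1 + (ℓ + 8208 * ℓ + 1) + 8208 * ℓ) := by
      apply Nat.mul_le_mul_left
      omega
    omega
  omega

end Crest.Agent.EF
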