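import Crest.Agent.Lib.EF.Defs

/-!
# Task A of the S0025 blueprint: the Engel-type stage.
-/

namespace Crest.Agent.EF

open Finset

/-- Output predicate for stage 0 (with the stronger denominator claim). -/
def Stage0Out (b M : ℕ) (r : ℚ) (n : ℕ) : Prop :=
  ∃ (E : Finset ℕ) (F : List ℕ) (c : ℕ) (r' : ℚ),
      0 ≤ r' ∧ r' * M < 1 ∧ r = r' + ∑ e ∈ E, (1 : ℚ) / e ∧
      (∀ e ∈ E, 2 ≤ e ∧ (e : ℚ) * r' < 1) ∧
      (∀ f ∈ F, 2 ≤ f ∧ f ≤ 2 * b) ∧
      E.card ≤ n ∧ F.length ≤ n ∧ 2 ^ c ≤ M ∧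
      ∀ c₁, c ≤ c₁ → ∀ D : ℕ, (∃ z : ℤ, (D : ℚ) * 2 ^ c₁ * r = z) →
        ∃ z : ℤ, (D : ℚ) * 2 ^ c₁ * (F.prod : ℕ) * r' = z

lemma stage0_out_mono {b M : ℕ} {r : ℚ} {n m : ℕ} (h : n ≤ m) (hout : Stage0Out b M r n) :
    Stage0Out b M r m := by
  obtain ⟨E, F, c, r', h0, h1, h2, h3, h4, h5, h6, h7, h8⟩ := hout
  exact ⟨E, F, c, r', h0, h1, h2, h3, h4, h5.trans h, h6.trans h, h7, h8⟩

lemma stage0_out_base {b M : ℕ} (hM : 1 ≤ M) {r : ℚ} (h0 : 0 ≤ r) (h1 : r * M < 1) (n : ℕ) :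
    Stage0Out b M r n := by
  refine ⟨∅, [], 0, r, h0, h1, by simp, by simp, by simp, by simp, by simp, by simpa using hM, ?_⟩
  intro c₁ _ D hz
  simpa using hz

/-- The basic greedy step. -/
lemma stage0_step (b : ℕ) (hb : 2 ≤ b) (r : ℚ) (h0 : 0 < r) (hr1 : r < 1) :
    ∃ (l f : ℕ), 2 ≤ f ∧ f ≤ 2 * b ∧ 1 ≤ ((2 : ℚ) ^ l * f) * r ∧ (2 : ℚ) ^ l * r < 1 ∧
      (r - 1 / ((2 : ℚ) ^ l * f)) * f < r ∧ ((2 : ℚ) ^ l * f) * (r - 1 / ((2 : ℚ) ^ l * f)) < 1 ∧
      (r * b < 1 → b ≤ f) ∧ (1 ≤ r * b → l = 0 ∧ 1 ≤ (f : ℚ) * r) := by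
  have hb' : (2 : ℚ) ≤ b := by exact_mod_cast hb
  have hbpos : (0 : ℚ) < b := by linarith
  -- the exponent `l`, with `x = u / 2 ^ l`
  obtain ⟨l, hl1, hl2, hl3, hl4⟩ : ∃ l : ℕ, (1 : ℚ) < 1 / (r * 2 ^ l) ∧ 1 / (r * 2 ^ l) ≤ 2 * b ∧
      (r * b < 1 → (b : ℚ) ≤ 1 / (r * 2 ^ l)) ∧ (1 ≤ r * b → l = 0) := by
    by_cases hu : 1 / r ≤ 2 * b
    · refine ⟨0, ?_, by simpa using hu, ?_, fun _ => rfl⟩
      · simp only [pow_zero, mul_one]
        rw [lt_div_iff₀ h0]; linarith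
      · intro h
        simp only [pow_zero, mul_one]
        rw [le_div_iff₀ h0]; nlinarith
    · push Not at hu
      have hx : (1 : ℚ) ≤ 1 / r / (2 * b) := by
        rw [le_div_iff₀ (by positivity)]; linarith
      obtain ⟨n, hn1, hn2⟩ := exists_nat_pow_near hx (by norm_num : (1 : ℚ) < 2)
      have hpow : (0 : ℚ) < 2 ^ n := by positivity
      have e1 : (2 : ℚ) ^ n * (2 * b) * r ≤ 1 := by
        rw [le_div_iff₀ (by positivity), le_div_iff₀ h0] at hn1
        linarith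
      have e2 : 1 < (2 : ℚ) ^ (n + 1) * (2 * b) * r := by
        rw [div_lt_iff₀ (by positivity), div_lt_iff₀ h0] at hn2
        nlinarith
      have e3 : (2 : ℚ) ^ (n + 1) = 2 * 2 ^ n := by rw [pow_succ]; ring
      rw [e3] at e2
      refine ⟨n + 1, ?_, ?_, ?_, ?_⟩
      · rw [lt_div_iff₀ (by positivity), e3]
        nlinarith
      · rw [div_le_iff₀ (by positivity), e3]
        nlinarith
      · intro _
        rw [le_div_iff₀ (by positivity), e3]
        nlinarith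
      · intro h1
        exfalso
        -- `r * b ≥ 1` means `1 / r ≤ b`, against `hu`
        have : 1 / r ≤ b := by
          rw [div_le_iff₀ h0]; linarith
        linarith
  set x : ℚ := 1 / (r * 2 ^ l) with hx
  have hxpos : 0 < x := by linarith
  have hpow : (0 : ℚ) < 2 ^ l := by positivity
  have hxr : x * (r * 2 ^ l) = 1 := by
    rw [hx]; field_simp
  refine ⟨l, ⌈x⌉₊, ?_, ?_, ?_, ?_, ?_⟩
  · have : (1 : ℚ) < (⌈x⌉₊ : ℚ) := lt_of_lt_of_le hl1 (Nat.le_ceil x)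
    have : 1 < ⌈x⌉₊ := by exact_mod_cast this
    omega
  · apply Nat.ceil_le.mpr
    push_cast
    exact hl2
  · have h1 : x ≤ (⌈x⌉₊ : ℚ) := Nat.le_ceil x
    have h2 : 0 < r * 2 ^ l := by positivity
    nlinarith
  · nlinarith
  · have h1 : x ≤ (⌈x⌉₊ : ℚ) := Nat.le_ceil x
    have h2 : (⌈x⌉₊ : ℚ) < x + 1 := Nat.ceil_lt_add_one hxpos.le
    have h3 : (0 : ℚ) < (⌈x⌉₊ : ℚ) := by linarith
    set f : ℚ := (⌈x⌉₊ : ℚ) with hf
    have h4 : 0 < r * 2 ^ l := by positivity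
    have e1 : (r - 1 / ((2 : ℚ) ^ l * f)) * f = r * f - 1 / 2 ^ l := by
      field_simp
    have e2 : ((2 : ℚ) ^ l * f) * (r - 1 / ((2 : ℚ) ^ l * f)) = 2 ^ l * f * r - 1 := by
      field_simp
    have e3 : 1 / (2 : ℚ) ^ l = x * r := by
      rw [hx]; field_simp
    have e4 : (2 : ℚ) ^ l * r < 1 := by nlinarith
    refine ⟨?_, ?_, ?_, ?_⟩
    · rw [e1, e3]
      nlinarith
    · rw [e2]
      have : 2 ^ l * f * r < 2 ^ l * (x + 1) * r := by
        apply mul_lt_mul_of_pos_right _ h0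
        exact mul_lt_mul_of_pos_left h2 hpow
      nlinarith
    · intro h
      have h5 : (b : ℚ) ≤ f := (hl3 h).trans h1
      rw [hf] at h5
      exact_mod_cast h5
    · intro h
      have hl0 := hl4 h
      refine ⟨hl0, ?_⟩
      rw [hl0] at hxr
      simp only [pow_zero, mul_one] at hxr
      nlinarith

/-- Merging a step with the output of the remainder. -/
lemma stage0_merge {b M n l f : ℕ} {r : ℚ} (hf2 : 2 ≤ f) (hfb : f ≤ 2 * b) (hl : 2 ^ l ≤ M)
    (h1 : ((2 : ℚ) ^ l * f) * (r - 1 / ((2 : ℚ) ^ l * f)) < 1)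
    (hout : Stage0Out b M (r - 1 / ((2 : ℚ) ^ l * f)) n) : Stage0Out b M r (n + 1) := by
  obtain ⟨E, F, c, r', h0', h1', h2', h3', h4', h5', h6', h7', h8'⟩ := hout
  set e : ℕ := 2 ^ l * f with he
  have hecast : (e : ℚ) = (2 : ℚ) ^ l * f := by rw [he]; push_cast; ring
  rw [← hecast] at h1 h2'
  have he2 : 2 ≤ e := by
    have : 1 ≤ 2 ^ l := Nat.one_le_two_pow
    rw [he]; nlinarith
  have hepos : (0 : ℚ) < e := by exact_mod_cast (by omega : 0 < e)
  have hsumnn : (0 : ℚ) ≤ ∑ x ∈ E, (1 : ℚ) / x := Finset.sum_nonneg (fun x _ => by positivity)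
  have hle : r' ≤ r - 1 / (e : ℚ) := by linarith
  have hnot : e ∉ E := by
    intro hmem
    have : (1 : ℚ) / e ≤ ∑ x ∈ E, (1 : ℚ) / x :=
      Finset.single_le_sum (f := fun x : ℕ => (1 : ℚ) / x) (fun x _ => by positivity) hmem
    have h2 : 1 / (e : ℚ) ≤ r - 1 / (e : ℚ) := by linarith
    have h3 : (e : ℚ) * (1 / e) = 1 := by field_simp
    nlinarith
  refine ⟨insert e E, f :: F, max l c, r', h0', h1', ?_, ?_, ?_, ?_, ?_, ?_, ?_⟩
  · rw [Finset.sum_insert hnot]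
    linarith
  · intro x hx
    rcases Finset.mem_insert.mp hx with rfl | hx
    · exact ⟨he2, by nlinarith⟩
    · exact h3' x hx
  · intro x hx
    rcases List.mem_cons.mp hx with rfl | hx
    · exact ⟨hf2, hfb⟩
    · exact h4' x hx
  · exact (Finset.card_insert_le _ _).trans (by omega)
  · simp only [List.length_cons]; omega
  · rcases le_total l c with h | h
    · rw [max_eq_right h]; exact h7'
    · rw [max_eq_left h]; exact hl
  · intro c₁ hc₁ D hz
    obtain ⟨z, hz⟩ := hz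
    have hlc : l ≤ c₁ := (le_max_left _ _).trans hc₁
    have hcc : c ≤ c₁ := (le_max_right _ _).trans hc₁
    obtain ⟨w, hw⟩ := h8' c₁ hcc (D * f) ⟨z * f - (D * 2 ^ (c₁ - l) : ℕ), by
      have e1 : (2 : ℚ) ^ c₁ = 2 ^ (c₁ - l) * 2 ^ l := by
        rw [← pow_add]; congr 1; omega
      have hfpos : (f : ℚ) ≠ 0 := by
        have : 0 < f := by omega
        exact_mod_cast this.ne'
      push_cast
      rw [← hz]
      rw [e1]
      field_simp⟩
    refine ⟨w, ?_⟩
    rw [← hw]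
    simp only [List.prod_cons]
    push_cast
    ring

/-- Phase B. -/
lemma stage0_phaseB {b M : ℕ} (hb : 2 ≤ b) (hM : 1 ≤ M) (t : ℕ) :
    ∀ r : ℚ, 0 ≤ r → r * b < 1 → r * M < (b : ℚ) ^ t → Stage0Out b M r t := by
  have hb' : (2 : ℚ) ≤ b := by exact_mod_cast hb
  have hbpos : (0 : ℚ) < b := by linarith
  have hM' : (1 : ℚ) ≤ M := by exact_mod_cast hM
  induction t with
  | zero =>
    intro r h0 _ h2
    exact stage0_out_base hM h0 (by simpa using h2) 0
  | succ t ih =>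
    intro r h0 h1 h2
    by_cases hr : r * M < 1
    · exact stage0_out_base hM h0 hr _
    · push Not at hr
      have hrpos : 0 < r := by
        rcases h0.lt_or_eq with h | h
        · exact h
        · rw [← h] at hr; simp at hr; linarith
      have hr1 : r < 1 := by nlinarith
      obtain ⟨l, f, hf2, hfb, hge, hl, hstep, hlt, hbf, _⟩ := stage0_step b hb r hrpos hr1
      have hbf' := hbf h1
      have hbf'' : (b : ℚ) ≤ f := by exact_mod_cast hbf'
      have hfpos : (0 : ℚ) < f := by linarith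
      have hpow : (0 : ℚ) < 2 ^ l := by positivity
      have hl' : 2 ^ l ≤ M := by
        have : (2 : ℚ) ^ l ≤ M := by
          have : (2 : ℚ) ^ l * r < r * M := by linarith
          have : (2 : ℚ) ^ l < M := by nlinarith
          linarith
        exact_mod_cast this
      refine stage0_merge hf2 hfb hl' hlt (ih _ ?_ ?_ ?_)
      · -- nonneg
        rw [sub_nonneg, div_le_iff₀ (by positivity)]
        linarith
      · have h3 : 0 ≤ r - 1 / ((2 : ℚ) ^ l * f) := by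
          rw [sub_nonneg, div_le_iff₀ (by positivity)]
          linarith
        set r' := r - 1 / ((2 : ℚ) ^ l * f)
        nlinarith
      · have h3 : 0 ≤ r - 1 / ((2 : ℚ) ^ l * f) := by
          rw [sub_nonneg, div_le_iff₀ (by positivity)]
          linarith
        set r' := r - 1 / ((2 : ℚ) ^ l * f)
        have h4 : r' * b ≤ r' * f := mul_le_mul_of_nonneg_left hbf'' h3
        have h5 : r' * b < r := by linarith
        have hMpos : (0 : ℚ) < M := by linarith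
        have h6 : r' * M * b < r * M := by nlinarith
        have h7 : r' * M * b < (b : ℚ) ^ t * b := by
          rw [pow_succ] at h2; linarith
        exact lt_of_mul_lt_mul_right h7 hbpos.le

/-- Phase A: descending through `1 / 2 ^ 2 ^ i`. -/
lemma stage0_phaseA {b M J T : ℕ} (hb : 2 ≤ b) (hM : 1 ≤ M) (hJ : b ≤ 2 ^ 2 ^ J)
    (hT : M ≤ b ^ T) (j : ℕ) :
    ∀ i : ℕ, i + j = J → ∀ r : ℚ, 0 ≤ r → r < 1 / 2 ^ 2 ^ i → Stage0Out b M r (j + T) := by
  have hb' : (2 : ℚ) ≤ b := by exact_mod_cast hb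
  have hbpos : (0 : ℚ) < b := by linarith
  have hM' : (1 : ℚ) ≤ M := by exact_mod_cast hM
  have hTq : (M : ℚ) ≤ (b : ℚ) ^ T := by exact_mod_cast hT
  have hlt1 : ∀ i : ℕ, (1 : ℚ) / 2 ^ 2 ^ i ≤ 1 := by
    intro i
    rw [div_le_iff₀ (by positivity), one_mul]
    exact one_le_pow₀ (by norm_num)
  -- use of Phase B when `r * b < 1`
  have hB : ∀ r : ℚ, 0 ≤ r → r < 1 → r * b < 1 → Stage0Out b M r T := by
    intro r h0 h1 h2
    refine stage0_phaseB hb hM T r h0 h2 ?_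
    have : r * M < 1 * M := mul_lt_mul_of_pos_right h1 (by linarith)
    linarith
  induction j with
  | zero =>
    intro i hi r h0 hr
    have hiJ : i = J := by omega
    subst hiJ
    have hbq : (b : ℚ) ≤ 2 ^ 2 ^ i := by exact_mod_cast hJ
    have h2 : r * b < 1 := by
      have h3 : (0 : ℚ) < 2 ^ 2 ^ i := by positivity
      rw [lt_div_iff₀ h3] at hr
      nlinarith
    have := hB r h0 (lt_of_lt_of_le hr (hlt1 i)) h2
    simpa using this
  | succ j ih =>
    intro i hi r h0 hr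
    have hr1 : r < 1 := lt_of_lt_of_le hr (hlt1 i)
    by_cases hrb : r * b < 1
    · exact stage0_out_mono (by omega) (hB r h0 hr1 hrb)
    · push Not at hrb
      have hrpos : 0 < r := by
        rcases h0.lt_or_eq with h | h
        · exact h
        · rw [← h] at hrb; simp at hrb; linarith
      obtain ⟨l, f, hf2, hfb, hge, hl, hstep, hlt, _, hl0⟩ := stage0_step b hb r hrpos hr1
      obtain ⟨hl00, hfr⟩ := hl0 hrb
      subst hl00
      simp only [pow_zero, one_mul] at hge hl hstep hlt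
      have hf2' : (2 : ℚ) ≤ f := by exact_mod_cast hf2
      have hfpos : (0 : ℚ) < f := by linarith
      have hstep' : ((r - 1 / (f : ℚ)) * f < r) := hstep
      have h3 : 0 ≤ r - 1 / (f : ℚ) := by
        rw [sub_nonneg, div_le_iff₀ (by positivity)]
        linarith
      have hnew : r - 1 / (f : ℚ) < 1 / 2 ^ 2 ^ (i + 1) := by
        have h4 : r - 1 / (f : ℚ) < r * r := by
          set r' := r - 1 / (f : ℚ)
          have : r' * ((f : ℚ) * r) < r * r := by nlinarith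
          nlinarith
        have h5 : r * r < 1 / 2 ^ 2 ^ i * (1 / 2 ^ 2 ^ i) := by
          apply mul_lt_mul'' hr hr h0 h0
        have h6 : (1 : ℚ) / 2 ^ 2 ^ i * (1 / 2 ^ 2 ^ i) = 1 / 2 ^ 2 ^ (i + 1) := by
          rw [pow_succ 2 i, pow_mul]
          field_simp
        linarith
      have := stage0_merge (b := b) (M := M) (n := j + T) (l := 0) (f := f) (r := r) hf2 hfb
        (by simpa using hM) (by simpa using hlt)
        (by simpa using ih (i + 1) (by omega) _ h3 hnew)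
      exact stage0_out_mono (by omega) this

/-- TASK A. Stage 0: the Engel-type expansion. -/
theorem stage0 (b M J T : ℕ) (hb : 2 ≤ b) (hM : 1 ≤ M) (hJ : b ≤ 2 ^ 2 ^ J) (hT : M ≤ b ^ T)
    (r : ℚ) (hr0 : 0 < r) (hr1 : r < 1) :
    ∃ (E : Finset ℕ) (F : List ℕ) (c : ℕ) (r' : ℚ),
      0 ≤ r' ∧ r' * M < 1 ∧ r = r' + ∑ e ∈ E, (1 : ℚ) / e ∧
      (∀ e ∈ E, 2 ≤ e ∧ (e : ℚ) * r' < 1) ∧
      (∀ f ∈ F, 2 ≤ f ∧ f ≤ 2 * b) ∧
      E.card ≤ J + T + 1 ∧ F.length ≤ J + T + 1 ∧ 2 ^ c ≤ M ∧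
      ∀ D : ℕ, (∃ z : ℤ, (D : ℚ) * 2 ^ c * r = z) →
        ∃ z : ℤ, (D : ℚ) * 2 ^ c * (F.prod : ℕ) * r' = z := by
  have hb' : (2 : ℚ) ≤ b := by exact_mod_cast hb
  have hbpos : (0 : ℚ) < b := by linarith
  have hM' : (1 : ℚ) ≤ M := by exact_mod_cast hM
  have hTq : (M : ℚ) ≤ (b : ℚ) ^ T := by exact_mod_cast hT
  have key : Stage0Out b M r (J + T + 1) := by
    by_cases hrb : r * b < 1
    · refine stage0_out_mono (by omega) (stage0_phaseB hb hM T r hr0.le hrb ?_)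
      have : r * M < 1 * M := mul_lt_mul_of_pos_right hr1 (by linarith)
      linarith
    · push Not at hrb
      obtain ⟨l, f, hf2, hfb, hge, hl, hstep, hlt, _, hl0⟩ := stage0_step b hb r hr0 hr1
      obtain ⟨hl00, hfr⟩ := hl0 hrb
      subst hl00
      simp only [pow_zero, one_mul] at hge hl hstep hlt
      have hf2' : (2 : ℚ) ≤ f := by exact_mod_cast hf2
      have hfpos : (0 : ℚ) < f := by linarith
      have hstep' : ((r - 1 / (f : ℚ)) * f < r) := hstep
      have h3 : 0 ≤ r - 1 / (f : ℚ) := by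
        rw [sub_nonneg, div_le_iff₀ (by positivity)]
        linarith
      have hnew : r - 1 / (f : ℚ) < 1 / 2 ^ 2 ^ 0 := by
        have : (r - 1 / (f : ℚ)) * 2 ≤ (r - 1 / (f : ℚ)) * f :=
          mul_le_mul_of_nonneg_left hf2' h3
        have e : (1 : ℚ) / 2 ^ 2 ^ 0 = 1 / 2 := by norm_num
        rw [e]
        linarith
      have := stage0_merge (b := b) (M := M) (n := J + T) (l := 0) (f := f) (r := r) hf2 hfb
        (by simpa using hM) (by simpa using hlt)
        (by simpa using stage0_phaseA hb hM hJ hT J 0 (by omega) _ h3 hnew)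
      exact this
  obtain ⟨E, F, c, r', h0, h1, h2, h3, h4, h5, h6, h7, h8⟩ := key
  exact ⟨E, F, c, r', h0, h1, h2, h3, h4, h5, h6, h7, fun D hz => h8 c le_rfl D hz⟩

end Crest.Agent.EF
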