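import Crest.Agent.Lib.EF.Defs

/-!
# S0025, task D1: subset products, expansion in Dirichlet characters
-/

namespace Crest.Agent.EF

open Finset

/-- TASK D1. Subset products: expansion in Dirichlet characters. -/
theorem card_subset_prod_le {n : ℕ} [NeZero n] {ι : Type*} [DecidableEq ι] (A : Finset ι)
    (u : ι → ZMod n) (hu : ∀ i ∈ A, IsUnit (u i)) (a : ZMod n) :
    ((A.powerset.filter fun I => ∏ i ∈ I, u i = a).card : ℝ) * n.totient ≤
      ∑ χ : DirichletCharacter ℂ n, ∏ i ∈ A, ‖1 + χ (u i)‖ := by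
  classical
  have hRHS : 0 ≤ ∑ χ : DirichletCharacter ℂ n, ∏ i ∈ A, ‖1 + χ (u i)‖ :=
    Finset.sum_nonneg (fun _ _ => Finset.prod_nonneg (fun _ _ => norm_nonneg _))
  by_cases ha : IsUnit a
  · have key : ((A.powerset.filter fun I => ∏ i ∈ I, u i = a).card : ℂ) * (n.totient : ℂ)
        = ∑ χ : DirichletCharacter ℂ n, χ a⁻¹ * ∏ i ∈ A, (1 + χ (u i)) := by
      calc ((A.powerset.filter fun I => ∏ i ∈ I, u i = a).card : ℂ) * (n.totient : ℂ)
          = ∑ I ∈ A.powerset, (if a = ∏ i ∈ I, u i then (n.totient : ℂ) else 0) := by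
            rw [← Finset.sum_boole, Finset.sum_mul]
            refine Finset.sum_congr rfl (fun I _ => ?_)
            by_cases h : a = ∏ i ∈ I, u i
            · rw [if_pos h, if_pos h.symm, one_mul]
            · rw [if_neg h, if_neg (fun e => h e.symm), zero_mul]
        _ = ∑ I ∈ A.powerset, ∑ χ : DirichletCharacter ℂ n, χ a⁻¹ * χ (∏ i ∈ I, u i) := by
            refine Finset.sum_congr rfl (fun I _ => ?_)
            exact (DirichletCharacter.sum_char_inv_mul_char_eq ℂ ha _).symm
        _ = ∑ χ : DirichletCharacter ℂ n, ∑ I ∈ A.powerset, χ a⁻¹ * χ (∏ i ∈ I, u i) :=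
            Finset.sum_comm
        _ = _ := by
            refine Finset.sum_congr rfl (fun χ _ => ?_)
            rw [Finset.prod_one_add, Finset.mul_sum]
            refine Finset.sum_congr rfl (fun I _ => ?_)
            rw [map_prod]
    have hnorm : ((A.powerset.filter fun I => ∏ i ∈ I, u i = a).card : ℝ) * n.totient
        = ‖((A.powerset.filter fun I => ∏ i ∈ I, u i = a).card : ℂ) * (n.totient : ℂ)‖ := by
      rw [norm_mul, Complex.norm_natCast, Complex.norm_natCast]
    rw [hnorm, key]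
    refine le_trans (norm_sum_le _ _) (Finset.sum_le_sum (fun χ _ => ?_))
    rw [norm_mul, norm_prod]
    have h1 : ‖χ a⁻¹‖ ≤ 1 := DirichletCharacter.norm_le_one χ _
    calc ‖χ a⁻¹‖ * ∏ i ∈ A, ‖1 + χ (u i)‖ ≤ 1 * ∏ i ∈ A, ‖1 + χ (u i)‖ :=
          mul_le_mul_of_nonneg_right h1 (Finset.prod_nonneg (fun _ _ => norm_nonneg _))
      _ = _ := one_mul _
  · have hempty : A.powerset.filter (fun I => ∏ i ∈ I, u i = a) = ∅ := by
      rw [Finset.filter_eq_empty_iff]
      intro I hI h
      apply ha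
      rw [← h]
      refine (IsUnit.prod_iff (s := I) (f := u)).mpr ?_ |> fun x => x
      intro i hi
      exact hu i (Finset.mem_powerset.mp hI hi)
    rw [hempty]
    simpa using hRHS

end Crest.Agent.EF
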